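import Vale.Agent.P229.Defs

/-!
# P229: rules for the partial derivatives `d1`, `d2`
-/

namespace Vale.Agent.P229

open MeasureTheory
open scoped ContDiff

variable {f g : P2 → ℝ} {x : P2}

lemma d1_add (hf : DifferentiableAt ℝ f x) (hg : DifferentiableAt ℝ g x) :
    d1 (fun y => f y + g y) x = d1 f x + d1 g x := by
  simp [d1, fderiv_fun_add hf hg]

lemma d2_add (hf : DifferentiableAt ℝ f x) (hg : DifferentiableAt ℝ g x) :
    d2 (fun y => f y + g y) x = d2 f x + d2 g x := by
  simp [d2, fderiv_fun_add hf hg]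

lemma d1_sub (hf : DifferentiableAt ℝ f x) (hg : DifferentiableAt ℝ g x) :
    d1 (fun y => f y - g y) x = d1 f x - d1 g x := by
  simp [d1, fderiv_fun_sub hf hg]

lemma d2_sub (hf : DifferentiableAt ℝ f x) (hg : DifferentiableAt ℝ g x) :
    d2 (fun y => f y - g y) x = d2 f x - d2 g x := by
  simp [d2, fderiv_fun_sub hf hg]

lemma d1_mul (hf : DifferentiableAt ℝ f x) (hg : DifferentiableAt ℝ g x) :
    d1 (fun y => f y * g y) x = d1 f x * g x + f x * d1 g x := by
  simp [d1, fderiv_fun_mul hf hg]; ring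

lemma d2_mul (hf : DifferentiableAt ℝ f x) (hg : DifferentiableAt ℝ g x) :
    d2 (fun y => f y * g y) x = d2 f x * g x + f x * d2 g x := by
  simp [d2, fderiv_fun_mul hf hg]; ring

lemma d1_neg : d1 (fun y => -f y) x = -d1 f x := by simp [d1]

lemma d2_neg : d2 (fun y => -f y) x = -d2 f x := by simp [d2]

lemma d1_const (c : ℝ) : d1 (fun _ => c) x = 0 := by simp [d1]

lemma d2_const (c : ℝ) : d2 (fun _ => c) x = 0 := by simp [d2]

lemma d1_const_mul (c : ℝ) (hf : DifferentiableAt ℝ f x) :
    d1 (fun y => c * f y) x = c * d1 f x := by simp [d1, fderiv_const_mul hf]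

lemma d2_const_mul (c : ℝ) (hf : DifferentiableAt ℝ f x) :
    d2 (fun y => c * f y) x = c * d2 f x := by simp [d2, fderiv_const_mul hf]

lemma d1_fst : d1 (fun y : P2 => y.1) x = 1 := by
  simp [d1, fderiv_fst]

lemma d1_snd : d1 (fun y : P2 => y.2) x = 0 := by
  simp [d1, fderiv_snd]

lemma d2_fst : d2 (fun y : P2 => y.1) x = 0 := by
  simp [d2, fderiv_fst]

lemma d2_snd : d2 (fun y : P2 => y.2) x = 1 := by
  simp [d2, fderiv_snd]

lemma d1_comp {φ : ℝ → ℝ} (hφ : DifferentiableAt ℝ φ (f x)) (hf : DifferentiableAt ℝ f x) :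
    d1 (fun y => φ (f y)) x = deriv φ (f x) * d1 f x := by
  have h := (hφ.hasDerivAt.comp_hasFDerivAt x hf.hasFDerivAt).fderiv
  simp [d1, Function.comp_def] at h ⊢
  rw [h]; simp

lemma d2_comp {φ : ℝ → ℝ} (hφ : DifferentiableAt ℝ φ (f x)) (hf : DifferentiableAt ℝ f x) :
    d2 (fun y => φ (f y)) x = deriv φ (f x) * d2 f x := by
  have h := (hφ.hasDerivAt.comp_hasFDerivAt x hf.hasFDerivAt).fderiv
  simp [d2, Function.comp_def] at h ⊢
  rw [h]; simp

lemma contDiff_d1 {n : ℕ} (hf : ContDiff ℝ (n + 1 : ℕ) f) : ContDiff ℝ n (d1 f) :=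
  (hf.fderiv_right (m := (n : ℕ∞ω)) (by push_cast; rfl)).clm_apply contDiff_const

lemma contDiff_d2 {n : ℕ} (hf : ContDiff ℝ (n + 1 : ℕ) f) : ContDiff ℝ n (d2 f) :=
  (hf.fderiv_right (m := (n : ℕ∞ω)) (by push_cast; rfl)).clm_apply contDiff_const

lemma d1_d2 (hf : ContDiff ℝ 2 f) : d1 (d2 f) x = d2 (d1 f) x := by
  have hd : DifferentiableAt ℝ (fderiv ℝ f) x :=
    ((hf.fderiv_right (m := 1) (by norm_num)).differentiable (by norm_num)) x
  have hs := (hf.contDiffAt (x := x)).isSymmSndFDerivAt (by simp)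
  simp only [d1, d2]
  unfold d2 d1
  rw [fderiv_clm_apply hd (differentiableAt_const _),
    fderiv_clm_apply hd (differentiableAt_const _)]
  simpa using hs (1, 0) (0, 1)

/-- The integral of an `x₁`-derivative of a compactly supported `C¹` function vanishes. -/
lemma integral_d1_eq_zero (hf : ContDiff ℝ 1 f) (hs : HasCompactSupport f) :
    ∫ x, d1 f x = 0 := by
  have hc : Continuous (fun x => fderiv ℝ f x (1, 0)) :=
    (hf.continuous_fderiv one_ne_zero).clm_apply continuous_const
  have h := integral_mul_fderiv_eq_neg_fderiv_mul_of_integrable (μ := (volume : Measure P2))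
    (f := fun _ => (1 : ℝ)) (g := f) (v := ((1, 0) : P2))
    (by simp)
    (by simpa using hc.integrable_of_hasCompactSupport (hs.fderiv_apply ℝ _))
    (by simpa using hf.continuous.integrable_of_hasCompactSupport hs)
    (fun x _ => differentiableAt_const _) (fun x _ => hf.differentiable one_ne_zero x)
  simpa [d1] using h

/-- The integral of an `x₂`-derivative of a compactly supported `C¹` function vanishes. -/
lemma integral_d2_eq_zero (hf : ContDiff ℝ 1 f) (hs : HasCompactSupport f) :
    ∫ x, d2 f x = 0 := by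
  have hc : Continuous (fun x => fderiv ℝ f x (0, 1)) :=
    (hf.continuous_fderiv one_ne_zero).clm_apply continuous_const
  have h := integral_mul_fderiv_eq_neg_fderiv_mul_of_integrable (μ := (volume : Measure P2))
    (f := fun _ => (1 : ℝ)) (g := f) (v := ((0, 1) : P2))
    (by simp)
    (by simpa using hc.integrable_of_hasCompactSupport (hs.fderiv_apply ℝ _))
    (by simpa using hf.continuous.integrable_of_hasCompactSupport hs)
    (fun x _ => differentiableAt_const _) (fun x _ => hf.differentiable one_ne_zero x)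
  simpa [d2] using h

end Vale.Agent.P229
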