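import Vale.Agent.P229.Defs

/-!
# P229: first-order calculus in the plane, Clairaut, integrals of divergences
-/

namespace Vale.Agent.P229

open MeasureTheory
open scoped ContDiff

/-- `f` has partial derivatives `a`, `b` at `x`. -/
def HD (f : P2 → ℝ) (x : P2) (a b : ℝ) : Prop :=
  HasFDerivAt f (a • ContinuousLinearMap.fst ℝ ℝ ℝ + b • ContinuousLinearMap.snd ℝ ℝ ℝ) x

theorem HD.d1 {f : P2 → ℝ} {x : P2} {a b : ℝ} (h : HD f x a b) : P229.d1 f x = a := by
  rw [P229.d1, HasFDerivAt.fderiv h]; simp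

theorem HD.d2 {f : P2 → ℝ} {x : P2} {a b : ℝ} (h : HD f x a b) : P229.d2 f x = b := by
  rw [P229.d2, HasFDerivAt.fderiv h]; simp

theorem HD.of_diff {f : P2 → ℝ} {x : P2} (h : DifferentiableAt ℝ f x) :
    HD f x (P229.d1 f x) (P229.d2 f x) := by
  refine h.hasFDerivAt.congr_fderiv ?_
  refine ContinuousLinearMap.ext fun v => ?_
  have : v = v.1 • ((1 : ℝ), (0 : ℝ)) + v.2 • ((0 : ℝ), (1 : ℝ)) := by
    obtain ⟨p, q⟩ := v; simp
  conv_lhs => rw [this, map_add, map_smul, map_smul]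
  simp [P229.d1, P229.d2, mul_comm]

theorem HD.add {f g : P2 → ℝ} {x : P2} {a b c d : ℝ} (hf : HD f x a b) (hg : HD g x c d) :
    HD (fun y => f y + g y) x (a + c) (b + d) :=
  (HasFDerivAt.fun_add hf hg).congr_fderiv (ContinuousLinearMap.ext fun v => by simp; ring)

theorem HD.sub {f g : P2 → ℝ} {x : P2} {a b c d : ℝ} (hf : HD f x a b) (hg : HD g x c d) :
    HD (fun y => f y - g y) x (a - c) (b - d) :=
  (HasFDerivAt.fun_sub hf hg).congr_fderiv (ContinuousLinearMap.ext fun v => by simp; ring)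

theorem HD.mul {f g : P2 → ℝ} {x : P2} {a b c d : ℝ} (hf : HD f x a b) (hg : HD g x c d) :
    HD (fun y => f y * g y) x (a * g x + f x * c) (b * g x + f x * d) :=
  (HasFDerivAt.mul hf hg).congr_fderiv (ContinuousLinearMap.ext fun v => by simp; ring)

theorem HD.smul {f : P2 → ℝ} {x : P2} {a b : ℝ} (k : ℝ) (hf : HD f x a b) :
    HD (fun y => k * f y) x (k * a) (k * b) :=
  (HasFDerivAt.const_mul hf k).congr_fderiv (ContinuousLinearMap.ext fun v => by simp; ring)

theorem HD.neg {f : P2 → ℝ} {x : P2} {a b : ℝ} (hf : HD f x a b) :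
    HD (fun y => -f y) x (-a) (-b) :=
  (HasFDerivAt.fun_neg hf).congr_fderiv (ContinuousLinearMap.ext fun v => by simp; ring)

theorem HD.const (k : ℝ) (x : P2) : HD (fun _ => k) x 0 0 :=
  (hasFDerivAt_const k x).congr_fderiv (ContinuousLinearMap.ext fun v => by simp)

theorem HD.fst (x : P2) : HD (fun y => y.1) x 1 0 :=
  hasFDerivAt_fst.congr_fderiv (ContinuousLinearMap.ext fun v => by simp)

theorem HD.snd (x : P2) : HD (fun y => y.2) x 0 1 :=
  hasFDerivAt_snd.congr_fderiv (ContinuousLinearMap.ext fun v => by simp)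

theorem HD.comp {g : ℝ → ℝ} {g' : ℝ} {f : P2 → ℝ} {x : P2} {a b : ℝ}
    (hg : HasDerivAt g g' (f x)) (hf : HD f x a b) :
    HD (fun y => g (f y)) x (g' * a) (g' * b) :=
  (hg.comp_hasFDerivAt x hf).congr_fderiv (ContinuousLinearMap.ext fun v => by simp; ring)

theorem cd1_smooth {f : P2 → ℝ} {n m : WithTop ℕ∞} (hf : ContDiff ℝ n f) (hmn : m + 1 ≤ n) :
    ContDiff ℝ m (d1 f) :=
  (hf.fderiv_right hmn).clm_apply contDiff_const

theorem cd2_smooth {f : P2 → ℝ} {n m : WithTop ℕ∞} (hf : ContDiff ℝ n f) (hmn : m + 1 ≤ n) :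
    ContDiff ℝ m (d2 f) :=
  (hf.fderiv_right hmn).clm_apply contDiff_const

theorem d2_d1 {f : P2 → ℝ} (hf : ContDiff ℝ 2 f) (x : P2) : d2 (d1 f) x = d1 (d2 f) x := by
  have hs : IsSymmSndFDerivAt ℝ f x :=
    hf.contDiffAt.isSymmSndFDerivAt (by simp)
  have hd : DifferentiableAt ℝ (fderiv ℝ f) x :=
    ((hf.fderiv_right (m := 1) (by norm_num)).differentiable (by norm_num)) x
  have e : ∀ u v : P2, fderiv ℝ (fun y => fderiv ℝ f y u) x v
      = fderiv ℝ (fderiv ℝ f) x v u := by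
    intro u v
    rw [fderiv_clm_apply hd (differentiableAt_const _)]; simp
  change fderiv ℝ (fun y => fderiv ℝ f y (1, 0)) x (0, 1)
    = fderiv ℝ (fun y => fderiv ℝ f y (0, 1)) x (1, 0)
  rw [e, e]; exact hs _ _

theorem integral_fderiv_apply_eq_zero {J : P2 → ℝ} (hJ : ContDiff ℝ 1 J)
    (hc : HasCompactSupport J) (v : P2) : ∫ x, fderiv ℝ J x v = 0 := by
  have hcd : Continuous fun x => fderiv ℝ J x v :=
    (hJ.continuous_fderiv (by norm_num)).clm_apply continuous_const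
  have hsd : HasCompactSupport fun x => fderiv ℝ J x v := hc.fderiv_apply ℝ v
  have h := integral_mul_fderiv_eq_neg_fderiv_mul_of_integrable (μ := (volume : Measure P2))
    (f := fun _ => (1 : ℝ)) (g := J) (v := v) (by simp)
    (by simpa using hcd.integrable_of_hasCompactSupport hsd)
    (by simpa using hJ.continuous.integrable_of_hasCompactSupport hc)
    (fun x _ => differentiableAt_const _) (fun x _ => hJ.differentiable (by norm_num) x)
  simpa using h

theorem integral_div_eq_zero {J₁ J₂ : P2 → ℝ} (h₁ : ContDiff ℝ 1 J₁) (h₂ : ContDiff ℝ 1 J₂)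
    (c₁ : HasCompactSupport J₁) (c₂ : HasCompactSupport J₂) :
    ∫ x, (d1 J₁ x + d2 J₂ x) = 0 := by
  have i₁ : Integrable (d1 J₁) :=
    (cd1_smooth (m := 0) h₁ (by simp)).continuous.integrable_of_hasCompactSupport
      (c₁.fderiv_apply ℝ _)
  have i₂ : Integrable (d2 J₂) :=
    (cd2_smooth (m := 0) h₂ (by simp)).continuous.integrable_of_hasCompactSupport
      (c₂.fderiv_apply ℝ _)
  rw [integral_add i₁ i₂]
  unfold d1 d2
  rw [integral_fderiv_apply_eq_zero h₁ c₁, integral_fderiv_apply_eq_zero h₂ c₂, add_zero]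

theorem isCompact_Dsk (r : ℝ) : IsCompact (Dsk r) := by
  have hcl : IsClosed (Dsk r) :=
    isClosed_le (by unfold rsq; fun_prop) continuous_const
  refine IsCompact.of_isClosed_subset
    (isCompact_Icc.prod isCompact_Icc :
      IsCompact (Set.Icc (-Real.sqrt |r|) (Real.sqrt |r|) ×ˢ
        Set.Icc (-Real.sqrt |r|) (Real.sqrt |r|))) hcl ?_
  intro x hx
  simp only [Dsk, rsq, Set.mem_ofPred_eq] at hx
  have h := le_abs_self r
  have h1 : |x.1| ≤ Real.sqrt |r| := Real.abs_le_sqrt (by nlinarith [sq_nonneg x.2])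
  have h2 : |x.2| ≤ Real.sqrt |r| := Real.abs_le_sqrt (by nlinarith [sq_nonneg x.1])
  exact ⟨⟨(abs_le.mp h1).1, (abs_le.mp h1).2⟩, ⟨(abs_le.mp h2).1, (abs_le.mp h2).2⟩⟩

end Vale.Agent.P229
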