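import Mathlib

/-!
# P229 shared definitions (disproof of local smooth isometric realizability)

Points of the plane are pairs. All conformal metrics are written `exp (2 φ) δ`.
-/

namespace Vale.Agent.P229

open scoped RealInnerProductSpace
open MeasureTheory

abbrev P2 := ℝ × ℝ

abbrev R3 := EuclideanSpace ℝ (Fin 3)

noncomputable def d1 (f : P2 → ℝ) (x : P2) : ℝ := fderiv ℝ f x (1, 0)

noncomputable def d2 (f : P2 → ℝ) (x : P2) : ℝ := fderiv ℝ f x (0, 1)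

noncomputable def lap (f : P2 → ℝ) (x : P2) : ℝ := d1 (d1 f) x + d2 (d2 f) x

noncomputable def gradSq (f : P2 → ℝ) (x : P2) : ℝ := d1 f x ^ 2 + d2 f x ^ 2

/-- Squared Euclidean radius. -/
def rsq (x : P2) : ℝ := x.1 ^ 2 + x.2 ^ 2

/-- Closed Euclidean disc of squared radius `r`. -/
def Dsk (r : ℝ) : Set P2 := {x | rsq x ≤ r}

/-- Closed annulus, by squared radii. -/
def Ann (r r' : ℝ) : Set P2 := {x | r ≤ rsq x ∧ rsq x ≤ r'}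

/-- Covariant Hessian of `Z` for `exp (2 φ) δ`. -/
noncomputable def H11 (φ Z : P2 → ℝ) (x : P2) : ℝ :=
  d1 (d1 Z) x - d1 φ x * d1 Z x + d2 φ x * d2 Z x

noncomputable def H12 (φ Z : P2 → ℝ) (x : P2) : ℝ :=
  d1 (d2 Z) x - d2 φ x * d1 Z x - d1 φ x * d2 Z x

noncomputable def H22 (φ Z : P2 → ℝ) (x : P2) : ℝ :=
  d2 (d2 Z) x + d1 φ x * d1 Z x - d2 φ x * d2 Z x

/-- Darboux equation of a height function, after scaling by `w` with `κ = 1 / w ^ 2`. -/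
def Darboux (κ : ℝ) (φ Z : P2 → ℝ) (x : P2) : Prop :=
  H11 φ Z x * H22 φ Z x - H12 φ Z x ^ 2 =
    -lap φ x * (κ * Real.exp (2 * φ x) - gradSq Z x)

/-- `F` is isometric for `exp (2 φ) δ` on `U`. -/
def IsIsom (φ : P2 → ℝ) (U : Set P2) (F : P2 → R3) : Prop :=
  ∀ x ∈ U, ∀ v w : P2,
    ⟪fderiv ℝ F x v, fderiv ℝ F x w⟫ = Real.exp (2 * φ x) * (v.1 * w.1 + v.2 * w.2)

/-! ### The analytic setting -/

/-- Coefficients of the linearised operator in scaled coordinates. -/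
structure Coef where
  b : P2 → ℝ
  a : P2 → ℝ
  β : P2 → ℝ
  c : P2 → ℝ

noncomputable def Coef.V (P : Coef) (w : P2 → ℝ) (x : P2) : ℝ := d2 w x - P.b x * d1 w x

noncomputable def Coef.op (P : Coef) (w : P2 → ℝ) (x : P2) : ℝ :=
  P.V (P.V w) x - P.a x * d1 (d1 w) x + P.β x * d1 w x + P.c x * d2 w x

/-- The coefficient class: a pocket of size `e`, error `τ`, crude bound `K`, sea margin `σ`. -/
structure Coef.Good (P : Coef) (e τ K σ : ℝ) : Prop where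
  hb : ContDiff ℝ 3 P.b
  ha : ContDiff ℝ 3 P.a
  hβ : ContDiff ℝ 2 P.β
  hc : ContDiff ℝ 2 P.c
  b0 : ∀ x, |P.b x| ≤ τ
  b1 : ∀ x, |d1 P.b x| ≤ τ
  b2 : ∀ x, |d2 P.b x| ≤ τ
  b11 : ∀ x, |d1 (d1 P.b) x| ≤ τ
  a0 : ∀ x ∈ Dsk (3/2), |P.a x - e * (1 - rsq x)| ≤ τ * e
  a1 : ∀ x ∈ Dsk (3/2), |d1 P.a x + 2 * e * x.1| ≤ τ * e
  a2 : ∀ x ∈ Dsk (3/2), |d2 P.a x + 2 * e * x.2| ≤ τ * e
  β0 : ∀ x ∈ Dsk (3/2), |P.β x + d1 P.a x| ≤ τ * e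
  c0 : ∀ x ∈ Dsk (3/2), |P.c x| ≤ τ * e
  sea : ∀ x ∈ Dsk (1 + σ), -(3 * σ * e) ≤ P.a x
  kb : ∀ x, ∀ i : ℕ, i ≤ 3 → ‖iteratedFDeriv ℝ i P.b x‖ ≤ K
  ka : ∀ x, ∀ i : ℕ, i ≤ 3 → ‖iteratedFDeriv ℝ i P.a x‖ ≤ K
  kβ : ∀ x, ∀ i : ℕ, i ≤ 2 → ‖iteratedFDeriv ℝ i P.β x‖ ≤ K
  kc : ∀ x, ∀ i : ℕ, i ≤ 2 → ‖iteratedFDeriv ℝ i P.c x‖ ≤ K

/-- A fixed radial bump: supported in the closed unit disc, nonnegative, positive at the centre. -/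
noncomputable def bump (x : P2) : ℝ := Real.smoothTransition (1 - rsq x)

/-- `μ ∑ dᵢ bump (Λ (x - pᵢ))`. -/
noncomputable def combB {n : ℕ} (μ Λ : ℝ) (p : Fin n → P2) (d : Fin n → ℝ) (x : P2) : ℝ :=
  μ * ∑ i, d i * bump (Λ * (x.1 - (p i).1), Λ * (x.2 - (p i).2))

/-- Number of active bumps. -/
noncomputable def active {n : ℕ} (d : Fin n → ℝ) : ℝ := ∑ i, d i ^ 2

/-- The square cells of mesh `h`. -/
def cell (h : ℝ) (k : ℤ × ℤ) : Set P2 :=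
  Set.Icc (h * k.1) (h * (k.1 + 1)) ×ˢ Set.Icc (h * k.2) (h * (k.2 + 1))

/-- Pigeonhole data: closeness on the annulus and of the cell averages. -/
def DataSmall (σ h δ : ℝ) (w : P2 → ℝ) : Prop :=
  (∀ x ∈ Ann (1 + σ / 2) (1 + σ), |w x| ≤ δ ∧ |d1 w x| ≤ δ ∧ |d2 w x| ≤ δ) ∧
    ∀ k : ℤ × ℤ, cell h k ⊆ Dsk (3/2) → |∫ x in cell h k, w x| ≤ δ

end Vale.Agent.P229
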