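import Vale.Agent.P229.EnergyMult

/-!
# P229 seat C: the energy bound

The slices are replaced by the test function `cut² · cut · t / sqrt (r² + t²)`, `t = x₂ - slope x₁`.
-/

namespace Vale.Agent.P229

open MeasureTheory
open scoped ContDiff

/-- The test function of the strip. -/
noncomputable def stripPhi (q r sl : ℝ) (x : P2) : ℝ :=
  cut (q / 5) x.1 * cut (q / 5) x.1 * (cut (q / 25) (x.2 - sl * x.1) * stp r (x.2 - sl * x.1))

theorem stripPhi_smooth (q : ℝ) {r : ℝ} (hr : 0 < r) (sl : ℝ) :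
    ContDiff ℝ ∞ (stripPhi q r sl) := by
  have ht : ContDiff ℝ ∞ (fun x : P2 => x.2 - sl * x.1) :=
    contDiff_snd.sub (contDiff_const.mul contDiff_fst)
  exact (((cut_smooth _).comp contDiff_fst).mul ((cut_smooth _).comp contDiff_fst)).mul
    (((cut_smooth _).comp ht).mul ((stp_smooth hr).comp ht))

theorem hd_stripPhi (q : ℝ) {r : ℝ} (hr : 0 < r) (sl : ℝ) (x : P2) :
    d1 (stripPhi q r sl) x
      = 2 * cut (q / 5) x.1 * deriv (cut (q / 5)) x.1
          * (cut (q / 25) (x.2 - sl * x.1) * stp r (x.2 - sl * x.1))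
        - sl * (cut (q / 5) x.1 * cut (q / 5) x.1
          * (deriv (cut (q / 25)) (x.2 - sl * x.1) * stp r (x.2 - sl * x.1)
            + cut (q / 25) (x.2 - sl * x.1)
              * (r ^ 2 / Real.sqrt (r ^ 2 + (x.2 - sl * x.1) ^ 2) ^ 3))) ∧
    d2 (stripPhi q r sl) x
      = cut (q / 5) x.1 * cut (q / 5) x.1
          * (deriv (cut (q / 25)) (x.2 - sl * x.1) * stp r (x.2 - sl * x.1)
            + cut (q / 25) (x.2 - sl * x.1)
              * (r ^ 2 / Real.sqrt (r ^ 2 + (x.2 - sl * x.1) ^ 2) ^ 3)) := by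
  have ht := (HD.snd x).sub ((HD.fst x).smul sl)
  have hc := HD.comp ((cut_smooth (q / 5)).differentiable (by simp) x.1).hasDerivAt (HD.fst x)
  have he := HD.comp
    ((cut_smooth (q / 25)).differentiable (by simp) (x.2 - sl * x.1)).hasDerivAt ht
  have hs := HD.comp (stp_hasDerivAt hr (x.2 - sl * x.1)) ht
  have h : HD (stripPhi q r sl) x _ _ := (hc.mul hc).mul (he.mul hs)
  rw [h.d1, h.d2]
  constructor <;> ring

theorem young {a g lam : ℝ} (hlam : 0 < lam) (hg : 0 ≤ g) :
    |a| * Real.sqrt g ≤ lam / 2 * a ^ 2 + g / (2 * lam) := by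
  have h := sq_nonneg (lam * |a| - Real.sqrt g)
  rw [sub_sq, mul_pow, sq_abs, Real.sq_sqrt hg] at h
  have e : lam / 2 * a ^ 2 + g / (2 * lam) = (lam ^ 2 * a ^ 2 + g) / (2 * lam) := by
    field_simp
  rw [e, le_div_iff₀ (by positivity)]
  linarith

theorem isClosed_box (A B sl : ℝ) :
    IsClosed {x : P2 | |x.1| ≤ A ∧ |x.2 - sl * x.1| ≤ B} :=
  (isClosed_le continuous_fst.abs continuous_const).inter
    (isClosed_le (continuous_snd.sub (continuous_const.mul continuous_fst)).abs continuous_const)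

theorem box_small {T q A B sl : ℝ} {x : P2} (hT : 0 ≤ T) (hq : 0 ≤ q) (hTq : (T + 1) * q ≤ 1/40)
    (hA : A ≤ q / 5) (hB : B ≤ q / 25) (hsl : |sl| ≤ T) (hx : |x.1| ≤ A ∧ |x.2 - sl * x.1| ≤ B) :
    |x.2| ≤ B + T * A ∧ rsq x ≤ 1/100 := by
  obtain ⟨h1, h2⟩ := hx
  have h3 : |x.2| ≤ B + T * A := by
    have := abs_add_le (x.2 - sl * x.1) (sl * x.1)
    rw [sub_add_cancel] at this
    linarith [amul hsl h1]
  have hTA : T * A ≤ T * (q / 5) := mul_le_mul_of_nonneg_left hA hT
  have h4 : |x.1| ≤ 1/100 := by linarith [mul_nonneg hT hq]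
  have h5 : |x.2| ≤ 1/100 := by linarith [mul_nonneg hT hq]
  have := pow_le_pow_left₀ (abs_nonneg _) h4 2
  have := pow_le_pow_left₀ (abs_nonneg _) h5 2
  rw [sq_abs] at *
  exact ⟨h3, by simp only [rsq]; linarith⟩

theorem young_integral_le {F A B : P2 → ℝ} (iF : Integrable F) (iA : Integrable A)
    (iB : Integrable B) (hp : ∀ x, F x ≤ A x + B x) :
    ∫ x, F x ≤ (∫ x, A x) + ∫ x, B x := by
  rw [← integral_add iA iB]
  exact integral_mono iF (iA.add iB) hp

theorem integrable_sq {f : P2 → ℝ} (hf : Continuous f) (hfc : HasCompactSupport f) :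
    Integrable (fun x => f x ^ 2) := by
  have h : HasCompactSupport (fun x => f x ^ 2) :=
    hfc.comp_left (g := fun t : ℝ => t ^ 2) (by simp)
  exact (hf.pow 2).integrable_of_hasCompactSupport h

theorem integrable_pair {f g : P2 → ℝ} (hf : Continuous f) (hg : Continuous g)
    (hfc : HasCompactSupport f) : Integrable (fun x => |f x| * Real.sqrt (g x)) := by
  have h1 : HasCompactSupport (fun x => |f x|) :=
    hfc.comp_left (g := fun t : ℝ => |t|) abs_zero
  have h2 : HasCompactSupport (fun x => |f x| * Real.sqrt (g x)) := h1.mul_right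
  exact (hf.abs.mul hg.sqrt).integrable_of_hasCompactSupport h2

theorem young_pt {lam : ℝ} (hlam : 0 < lam) {f g : P2 → ℝ} {S : Set P2} (g0 : ∀ x, 0 ≤ g x)
    (hfs : ∀ x, x ∉ S → f x = 0) (x : P2) :
    |f x| * Real.sqrt (g x) ≤ lam / 2 * f x ^ 2 + S.indicator g x / (2 * lam) := by
  by_cases hx : x ∈ S
  · rw [Set.indicator_of_mem hx]; exact young hlam (g0 x)
  · rw [Set.indicator_of_notMem hx, hfs x hx]; simp

theorem young_int {lam : ℝ} (hlam : 0 < lam) {f g : P2 → ℝ} {S : Set P2} (hS : IsCompact S)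
    (hf : Continuous f) (hg : Continuous g) (g0 : ∀ x, 0 ≤ g x) (hfs : ∀ x, x ∉ S → f x = 0) :
    ∫ x, |f x| * Real.sqrt (g x) ≤ lam / 2 * (∫ x, f x ^ 2) + (∫ x in S, g x) / (2 * lam) := by
  have hfc : HasCompactSupport f := HasCompactSupport.intro hS hfs
  have iS : Integrable (S.indicator g) :=
    (integrable_indicator_iff hS.measurableSet).mpr (hg.continuousOn.integrableOn_compact hS)
  rw [← integral_indicator hS.measurableSet, ← integral_div, ← integral_const_mul]
  exact young_integral_le (integrable_pair hf hg hfc) ((integrable_sq hf hfc).const_mul (lam / 2))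
    (iS.div_const (2 * lam)) (young_pt hlam g0 hfs)

theorem weight_bounds {θ e : ℝ} {P : Coef} {s w : P2 → ℝ} {r : ℝ} (hθ : 0 < θ) (hθ1 : θ ≤ 1)
    (e0 : 0 < e) (hr : 1 ≤ r) (hs : Continuous s) (hen : Continuous (en e P w)) :
    θ * (∫ x in Dsk r, en e P w x) ≤ (∫ x in Dsk r, wgt θ e (s x) * en e P w x) ∧
    (∫ x in edgeSet e s, en e P w x) ≤ ∫ x in Dsk r, wgt θ e (s x) * en e P w x := by
  have wc : Continuous (fun x => wgt θ e (s x)) := (wgt_smooth θ e).continuous.comp hs
  have iD : IntegrableOn (fun x => wgt θ e (s x) * en e P w x) (Dsk r) :=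
    (wc.mul hen).continuousOn.integrableOn_compact (isCompact_Dsk _)
  constructor
  · rw [← integral_const_mul]
    exact setIntegral_mono_on
      ((continuous_const.mul hen).continuousOn.integrableOn_compact (isCompact_Dsk _)) iD
      (isCompact_Dsk _).measurableSet
      fun x _ => mul_le_mul_of_nonneg_right (wgt_bounds hθ.le hθ1 _).1 (en_nonneg e0.le P w x)
  · have hsub : edgeSet e s ⊆ Dsk r := fun x hx => by
      have h1 : rsq x ≤ 1 := hx.1
      simp only [Dsk, Set.mem_ofPred_eq]; linarith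
    have hme : MeasurableSet (edgeSet e s) :=
      (isCompact_Dsk 1).measurableSet.inter (isClosed_le continuous_const hs.abs).measurableSet
    calc ∫ x in edgeSet e s, en e P w x
        = ∫ x in edgeSet e s, wgt θ e (s x) * en e P w x :=
          setIntegral_congr_fun hme fun x hx => by simp only [wgt_high e0 hx.2, one_mul]
      _ ≤ _ := setIntegral_mono_set iD (Filter.Eventually.of_forall fun x =>
          mul_nonneg (le_trans hθ.le (wgt_bounds hθ.le hθ1 _).1) (en_nonneg e0.le P w x))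
          hsub.eventuallyLE

theorem final_alg {θ C L D δ r A En Ed Wn SI Fq : ℝ} (hθ : 0 < θ) (hθ1 : θ ≤ 1) (hC : 1 ≤ C)
    (hL : L = 40 * (1 + 32 * C)) (hr : 0 < r) (hD : 0 ≤ D)
    (hM : Wn ≤ 32 * θ * A + D * δ ^ 2) (hE : θ * En ≤ Wn) (hEd : Ed ≤ Wn)
    (hY : A ≤ L * r / 2 * Fq + SI / (2 * (L * r))) (hS : SI / (40 * r) ≤ A + C * En) :
    En ≤ 32 * L * (r * Fq) + (100 * D / θ + 1) * δ ^ 2 ∧
    Ed ≤ 32 * L * θ * (r * Fq) + (100 * D / θ + 1) * δ ^ 2 := by
  have L0 : 0 < L := by rw [hL]; linarith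
  set Dt := D * δ ^ 2 / θ with hDt
  have Dt0 : 0 ≤ Dt := by positivity
  have hθD : D * δ ^ 2 = θ * Dt := by rw [hDt]; field_simp
  have hEA : En ≤ 32 * A + Dt := by
    refine le_of_mul_le_mul_left ?_ hθ
    linarith
  have hAb : A ≤ L * (r * Fq) + 2 * Dt := by
    have h1 : SI / (2 * (L * r)) = 20 / L * (SI / (40 * r)) := by field_simp; ring
    have h2 : A + C * En ≤ (1 + 32 * C) * A + C * Dt := by
      linarith [mul_le_mul_of_nonneg_left hEA (show 0 ≤ C by linarith)]
    have h3 := mul_le_mul_of_nonneg_left (le_trans hS h2) (show 0 ≤ 20 / L by positivity)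
    have h4 : 20 / L * ((1 + 32 * C) * A) = A / 2 := by rw [hL]; field_simp; ring
    have h5 : 20 / L * (C * Dt) ≤ Dt := by
      rw [← mul_assoc]
      refine mul_le_of_le_one_left Dt0 ?_
      rw [div_mul_eq_mul_div, div_le_one L0, hL]; linarith
    linarith
  have hd2 : (100 * D / θ + 1) * δ ^ 2 = 100 * Dt + δ ^ 2 := by rw [hDt]; ring
  have hθD1 : θ * Dt ≤ Dt := mul_le_of_le_one_left Dt0 hθ1
  have hθA := mul_le_mul_of_nonneg_left hAb hθ.le
  rw [hd2]
  constructor <;> linarith [sq_nonneg δ]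

/-- The strip carries little energy. -/
theorem slice_estimate {T elo : ℝ} (hT : 0 ≤ T) (helo : 0 < elo) :
    ∃ C : ℝ, 1 ≤ C ∧ ∀ (e τ K σ r sl : ℝ) (P : Coef) (f w : P2 → ℝ),
      elo ≤ e → e ≤ 1 → (T + 1) * Real.sqrt e ≤ 1/40 → 0 < τ → τ * (T + 1) ≤ 1/100 →
      τ ≤ 1/1000 → 0 ≤ σ → 0 < r → r ≤ Real.sqrt elo / 100 → |sl| ≤ T → P.Good e τ K σ →
      Continuous f →
      (∀ x, f x ≠ 0 → |x.1| ≤ Real.sqrt elo / 20 ∧ |x.2 - sl * x.1| ≤ r) →
      ContDiff ℝ 3 w → (∀ x ∈ Dsk (3/2), P.op w x = f x) →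
      (∫ x in {x : P2 | |x.1| ≤ Real.sqrt elo / 20 ∧ |x.2 - sl * x.1| ≤ r}, en e P w x) / (40 * r)
        ≤ (∫ x, |f x| * Real.sqrt (en e P w x))
          + C * ∫ x in Dsk (1 + σ / 2), en e P w x := by
  have hq : 0 < Real.sqrt elo := Real.sqrt_pos.mpr helo
  set q := Real.sqrt elo with hqd
  obtain ⟨B1, B10, hB1⟩ := cut_deriv_bound (show 0 < q / 5 by positivity)
  obtain ⟨B2, B20, hB2⟩ := cut_deriv_bound (show 0 < q / 25 by positivity)
  refine ⟨12 + 8 * B1 + 4 * (1 + T) * B2, by linarith [mul_nonneg hT B20], ?_⟩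
  intro e τ K σ r sl P f w he e1 hTe t0 tT t1 hσ hr hrq hsl g hf hsupp hw heq
  have e0 : 0 < e := lt_of_lt_of_le helo he
  have qe : q ≤ Real.sqrt e := Real.sqrt_le_sqrt he
  have q40 : (T + 1) * q ≤ 1/40 := le_trans (mul_le_mul_of_nonneg_left qe (by linarith)) hTe
  set Φ := stripPhi q r sl with hΦd
  set C := 12 + 8 * B1 + 4 * (1 + T) * B2 with hC
  set S := {x : P2 | |x.1| ≤ q / 20 ∧ |x.2 - sl * x.1| ≤ r} with hS
  set Bx := {x : P2 | |x.1| ≤ q / 5 ∧ |x.2 - sl * x.1| ≤ q / 25} with hBx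
  have small : ∀ x ∈ Bx, rsq x ≤ 1/100 := fun x hx =>
    (box_small hT hq.le q40 le_rfl le_rfl hsl hx).2
  have hSB : S ⊆ Bx := fun x hx => ⟨by linarith [hx.1], by linarith [hx.2]⟩
  have off : ∀ x, x ∉ Bx → Φ x = 0 ∧ d1 Φ x = 0 ∧ d2 Φ x = 0 ∧
      cut (q / 5) x.1 * cut (q / 5) x.1 * cut (q / 25) (x.2 - sl * x.1) = 0 := by
    intro x hx
    obtain ⟨a, b⟩ := hd_stripPhi q hr sl x
    simp only [hBx, Set.mem_ofPred_eq, not_and_or, not_le] at hx
    rw [hΦd, a, b]
    rcases hx with h | h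
    · simp [stripPhi, cut_zero (show 0 < q / 5 by positivity) h.le]
    · simp [stripPhi, cut_zero (show 0 < q / 25 by positivity) h.le,
        cut_deriv_zero (show 0 < q / 25 by positivity) h]
  have hBc : IsCompact Bx := by
    have hcl : IsClosed Bx := isClosed_box _ _ _
    exact (isCompact_Dsk (1/100)).of_isClosed_subset hcl small
  have hSc : IsCompact S := by
    have hcl : IsClosed S := isClosed_box _ _ _
    exact hBc.of_isClosed_subset hcl hSB
  obtain ⟨s1s, s2s⟩ := sJ_smooth g.hb g.ha hw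
  have hΦ : ContDiff ℝ 1 Φ := (stripPhi_smooth q hr sl).of_le (by simp)
  set F1 := fun x => Φ x * sJ1 P w x with hF1
  set F2 := fun x => Φ x * sJ2 P w x with hF2
  have cF : HasCompactSupport F1 ∧ HasCompactSupport F2 := by
    constructor <;> refine HasCompactSupport.intro hBc (fun x hx => ?_) <;>
      simp [hF1, hF2, (off x hx).1]
  have F1s : ContDiff ℝ 1 F1 := hΦ.mul s1s
  have F2s : ContDiff ℝ 1 F2 := hΦ.mul s2s
  have hdiv := integral_div_eq_zero F1s F2s cF.1 cF.2
  have idiv : Integrable (fun x => d1 F1 x + d2 F2 x) :=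
    ((cd1_smooth (m := 0) F1s (by simp)).continuous.integrable_of_hasCompactSupport
      (cF.1.fderiv_apply ℝ _)).add
    ((cd2_smooth (m := 0) F2s (by simp)).continuous.integrable_of_hasCompactSupport
      (cF.2.fderiv_apply ℝ _))
  have enc := en_continuous e g.hb hw
  have hfc : HasCompactSupport f := HasCompactSupport.intro hBc fun x hx => by
    by_contra hne
    exact hx (hSB (hsupp x hne))
  have iA : Integrable (fun x => |f x| * Real.sqrt (en e P w x)) :=
    (hf.abs.mul enc.sqrt).integrable_of_hasCompactSupport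
      ((hfc.comp_left (g := fun t : ℝ => |t|) abs_zero).mul_right)
  have mS : MeasurableSet S := hSc.measurableSet
  have mD : MeasurableSet (Dsk (1 + σ / 2)) := (isCompact_Dsk _).measurableSet
  have iS : Integrable (S.indicator (en e P w)) :=
    (integrable_indicator_iff mS).mpr (enc.continuousOn.integrableOn_compact hSc)
  have iD : Integrable ((Dsk (1 + σ / 2)).indicator (en e P w)) :=
    (integrable_indicator_iff mD).mpr (enc.continuousOn.integrableOn_compact (isCompact_Dsk _))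
  have hpt : ∀ x, S.indicator (en e P w) x / (40 * r) ≤ (d1 F1 x + d2 F2 x)
      + |f x| * Real.sqrt (en e P w x) + C * (Dsk (1 + σ / 2)).indicator (en e P w) x := by
    intro x
    have hd := (HD.of_diff (hΦ.differentiable (by norm_num) x))
    have e1' : d1 F1 x = d1 Φ x * sJ1 P w x + Φ x * d1 (sJ1 P w) x :=
      (hd.mul (HD.of_diff (s1s.differentiable (by norm_num) x))).d1
    have e2' : d2 F2 x = d2 Φ x * sJ2 P w x + Φ x * d2 (sJ2 P w) x :=
      (hd.mul (HD.of_diff (s2s.differentiable (by norm_num) x))).d2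
    by_cases hx : x ∈ Bx
    · have hr0 := small x hx
      have hD : x ∈ Dsk (1 + σ / 2) := by simp only [Dsk, Set.mem_ofPred_eq]; linarith
      have h3 : x ∈ Dsk (3/2) := by simp only [Dsk, Set.mem_ofPred_eq]; linarith
      rw [Set.indicator_of_mem hD, e1', e2']
      obtain ⟨p1, p2⟩ := hd_stripPhi q hr sl x
      rw [hΦd, p1, p2]
      have sid := slice_identity g.hb g.ha hw x
      rw [heq x h3] at sid
      set u := P.V w x with hu
      set p := d1 w x with hp
      set R := d1 P.b x * ((u ^ 2 + P.a x * p ^ 2) / 2)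
          - (d2 P.a x - P.b x * d1 P.a x) * p ^ 2 / 2 - P.a x * d1 P.b x * p ^ 2
          + ((P.β x + d1 P.a x) * p + P.c x * (u + P.b x * p)) * u with hR
      set t := x.2 - sl * x.1 with ht
      set φ := cut (q / 5) x.1 with hφ
      set η := cut (q / 25) t with hη
      set dS := r ^ 2 / Real.sqrt (r ^ 2 + t ^ 2) ^ 3 with hdS
      obtain ⟨φ0, φ1⟩ := cut_mem (q / 5) x.1
      obtain ⟨η0, η1⟩ := cut_mem (q / 25) t
      have hte : τ * e ≤ 1/1000 * e := mul_le_mul_of_nonneg_right t1 e0.le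
      have hxr : x.1 ^ 2 + x.2 ^ 2 ≤ 1/100 := hr0
      have alo : e / 2 ≤ P.a x := by
        linarith [(abs_le.mp (g.a0 x h3)).1, show e * rsq x ≤ e * (1/100) from
          mul_le_mul_of_nonneg_left hr0 e0.le]
      have ahi : P.a x ≤ 2 * e := by
        linarith [(abs_le.mp (g.a0 x h3)).2, show 0 ≤ e * rsq x by unfold rsq; positivity]
      have he2 : |2 * e| ≤ 2 * e := (abs_of_pos (by positivity)).le
      have a1b : |d1 P.a x| ≤ 4 * e := by
        have h1 := abs_sub (d1 P.a x + 2 * e * x.1) (2 * e * x.1)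
        rw [add_sub_cancel_right] at h1
        linarith [g.a1 x h3, amul he2 (show |x.1| ≤ 1 from
          abs_le_of_sq_le_sq (by linarith [sq_nonneg x.2]) (by norm_num))]
      have a2b : |d2 P.a x| ≤ 4 * e := by
        have h1 := abs_sub (d2 P.a x + 2 * e * x.2) (2 * e * x.2)
        rw [add_sub_cancel_right] at h1
        linarith [g.a2 x h3, amul he2 (show |x.2| ≤ 1 from
          abs_le_of_sq_le_sq (by linarith [sq_nonneg x.1]) (by norm_num))]
      have hb : |P.b x| ≤ 1 := le_trans (g.b0 x) (by linarith)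
      have hslb : |sl * P.b x| ≤ 1/10 := by
        linarith [amul hsl (g.b0 x), mul_nonneg t0.le zero_le_one (α := ℝ)]
      have Te : T * Real.sqrt e ≤ 1/40 := by linarith [Real.sqrt_nonneg e]
      have hlo := flux_lower (u := u) (p := p) e0 Te hsl hslb alo ahi
      obtain ⟨hJ, hJ1, hR'⟩ := flux_upper (sl := sl) (a := P.a x) (a1 := d1 P.a x)
        (a2 := d2 P.a x) (b := P.b x) (b1 := d1 P.b x) (β := P.β x + d1 P.a x) (c := P.c x)
        (u := u) (p := p) e0 e1 hsl (abs_le.mpr ⟨by linarith, ahi⟩) a1b a2b hb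
        (le_trans (g.b1 x) (by linarith)) (le_trans (g.β0 x h3) (by linarith))
        (le_trans (g.c0 x h3) (by linarith))
      obtain ⟨fl, fj⟩ := sJ_flux P w x sl
      rw [← fl] at hlo hJ
      rw [← fj] at hJ1
      set N := u ^ 2 + e * p ^ 2 with hN
      have hen : en e P w x = N := rfl
      rw [hen]
      have N0 : 0 ≤ N := by positivity
      have hu' : |u| ≤ Real.sqrt N := Real.abs_le_sqrt (by
        linarith [mul_nonneg e0.le (sq_nonneg p)])
      have hS' : |stp r t| ≤ 1 := stp_abs hr t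
      have dS0 : 0 ≤ dS := by
        have := stp_pos hr t; positivity
      have hφφ : |φ * φ| ≤ 1 := by
        rw [abs_of_nonneg (mul_nonneg φ0 φ0)]; exact mul_le_one₀ φ1 φ0 φ1
      have hη' : |η| ≤ 1 := by rw [abs_of_nonneg η0]; exact η1
      have hK : |η * stp r t| ≤ 1 := by have := amul hη' hS'; linarith
      have hΦ1 : |stripPhi q r sl x| ≤ 1 := by
        have := amul hφφ hK; rw [one_mul] at this; exact this
      have T1 : |stripPhi q r sl x * (f x * u)| ≤ |f x| * Real.sqrt N := by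
        have := amul hΦ1 (amul (le_refl |f x|) hu'); linarith
      have T2 : |stripPhi q r sl x * R| ≤ 12 * N := by
        have := amul hΦ1 hR'; linarith
      have T3 : |2 * φ * deriv (cut (q / 5)) x.1 * (η * stp r t) * sJ1 P w x| ≤ 8 * B1 * N := by
        have h2φ : |2 * φ| ≤ 2 := by rw [abs_of_nonneg (by linarith)]; linarith
        have := amul (amul (amul h2φ (hB1 x.1)) hK) hJ1; linarith
      have T4 : |φ * φ * (deriv (cut (q / 25)) t * stp r t) * (sJ2 P w x - sl * sJ1 P w x)|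
          ≤ 4 * (1 + T) * B2 * N := by
        have := amul (amul hφφ (amul (hB2 t) hS')) hJ; linarith
      have main : S.indicator (en e P w) x / (40 * r)
          ≤ φ * φ * (η * dS) * (sJ2 P w x - sl * sJ1 P w x) := by
        by_cases hxS : x ∈ S
        · rw [Set.indicator_of_mem hxS, hen]
          have h1 : φ = 1 := cut_one (by positivity) (by linarith [hxS.1])
          have h2 : η = 1 := cut_one (by positivity) (by linarith [hxS.2])
          rw [h1, h2, one_mul, one_mul, one_mul]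
          calc N / (40 * r) = 1 / (4 * r) * (N / 10) := by field_simp; ring
            _ ≤ dS * (sJ2 P w x - sl * sJ1 P w x) :=
              mul_le_mul (stp_deriv_lower hr hxS.2) hlo (by positivity) dS0
        · rw [Set.indicator_of_notMem hxS, zero_div]
          exact mul_nonneg (by positivity) (le_trans (by positivity) hlo)
      refine le_trans main ?_
      have hsplit : φ * φ * (η * dS) * (sJ2 P w x - sl * sJ1 P w x)
          = ((2 * φ * deriv (cut (q / 5)) x.1 * (η * stp r t)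
              - sl * (φ * φ * (deriv (cut (q / 25)) t * stp r t + η * dS))) * sJ1 P w x
            + stripPhi q r sl x * d1 (sJ1 P w) x
            + (φ * φ * (deriv (cut (q / 25)) t * stp r t + η * dS) * sJ2 P w x
            + stripPhi q r sl x * d2 (sJ2 P w) x))
            - stripPhi q r sl x * (f x * u) + stripPhi q r sl x * R
            - 2 * φ * deriv (cut (q / 5)) x.1 * (η * stp r t) * sJ1 P w x
            - φ * φ * (deriv (cut (q / 25)) t * stp r t) * (sJ2 P w x - sl * sJ1 P w x) := by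
        rw [sid]; ring
      rw [hsplit, hC]
      linarith [(abs_le.mp T1).1, (abs_le.mp T2).2, (abs_le.mp T3).1, (abs_le.mp T4).1]
    · obtain ⟨o1, o2, o3, -⟩ := off x hx
      rw [Set.indicator_of_notMem (fun h => hx (hSB h)), zero_div, e1', e2', o1, o2, o3]
      have : 0 ≤ (Dsk (1 + σ / 2)).indicator (en e P w) x :=
        Set.indicator_nonneg (fun y _ => en_nonneg e0.le P w y) x
      have h0 : 0 ≤ |f x| * Real.sqrt (en e P w x) := by positivity
      have hC0 : 0 ≤ C * (Dsk (1 + σ / 2)).indicator (en e P w) x :=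
        mul_nonneg (by rw [hC]; positivity) this
      linarith
  have h := integral_mono (iS.div_const (40 * r)) ((idiv.add iA).add (iD.const_mul C)) hpt
  rw [integral_div, integral_add' (idiv.add iA) (iD.const_mul C), integral_add' idiv iA, hdiv,
    zero_add, integral_const_mul, integral_indicator mS, integral_indicator mD] at h
  exact h

/-- SEAT C: the energy bound. -/
theorem energyBound : EnergyBound := by
  intro T hT
  refine ⟨min (1/1000) (1 / (100 * (T + 1))), min 1 (1 / (1600 * (T + 1) ^ 2)),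
    lt_min (by norm_num) (by positivity), lt_min one_pos (by positivity), ?_⟩
  intro τ elo ehi K t0 tle helo hle hhi hK
  obtain ⟨C, hC1, hslice⟩ := slice_estimate hT.le helo
  set L := 40 * (1 + 32 * C) with hL
  have L0 : 0 < L := by rw [hL]; linarith
  refine ⟨32 * L, by linarith, ?_⟩
  intro θ hθ hθ1
  obtain ⟨σ, D, σ0, σ1, D0, hmult⟩ := mult_estimate hK hθ hθ1
  refine ⟨σ, 100 * D / θ + 1, σ0, σ1, by positivity, ?_⟩
  intro e P s heI g hl r δ sl f w hr hrq _ hsl hf hsupp hw heq hdata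
  obtain ⟨he, he'⟩ := heI
  have e0 : 0 < e := lt_of_lt_of_le helo he
  have ee : e ≤ min 1 (1 / (1600 * (T + 1) ^ 2)) := le_trans he' hhi
  have e1 : e ≤ 1 := le_trans ee (min_le_left _ _)
  have t1 : τ ≤ 1/1000 := le_trans tle (min_le_left _ _)
  have tT : τ * (T + 1) ≤ 1/100 := by
    calc τ * (T + 1) ≤ 1 / (100 * (T + 1)) * (T + 1) :=
          mul_le_mul_of_nonneg_right (le_trans tle (min_le_right _ _)) (by linarith)
      _ = 1/100 := by field_simp
  have hTe : (T + 1) * Real.sqrt e ≤ 1/40 := by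
    calc (T + 1) * Real.sqrt e ≤ (T + 1) * Real.sqrt ((1 / (40 * (T + 1))) ^ 2) := by
          refine mul_le_mul_of_nonneg_left (Real.sqrt_le_sqrt ?_) (by linarith)
          refine le_trans (le_trans ee (min_le_right _ _)) (le_of_eq ?_)
          field_simp; ring
      _ = 1/40 := by rw [Real.sqrt_sq (by positivity)]; field_simp
  have qe : Real.sqrt elo ≤ Real.sqrt e := Real.sqrt_le_sqrt he
  have q40 : (T + 1) * Real.sqrt elo ≤ 1/40 :=
    le_trans (mul_le_mul_of_nonneg_left qe (by linarith)) hTe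
  have hq0 := Real.sqrt_nonneg elo
  have hbox : ∀ x : P2, |x.1| ≤ Real.sqrt elo / 20 ∧ |x.2 - sl * x.1| ≤ r →
      |x.2| ≤ (T + 1) * Real.sqrt e / 20 ∧ rsq x ≤ 1/100 := by
    intro x hx
    obtain ⟨h3, h4⟩ := box_small hT.le hq0 q40 (by linarith) (by linarith) hsl hx
    refine ⟨?_, h4⟩
    linarith [mul_le_mul_of_nonneg_left qe hT.le]
  have hsupp' : ∀ x, f x ≠ 0 → |x.1| ≤ Real.sqrt e / 20 ∧
      |x.2| ≤ (T + 1) * Real.sqrt e / 20 ∧ rsq x ≤ 1/2 := fun x hx =>
    ⟨by linarith [(hsupp x hx).1], (hbox x (hsupp x hx)).1,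
      by linarith [(hbox x (hsupp x hx)).2]⟩
  have hM := hmult e τ T δ P s f w e0 e1 t0 t1 hT.le tT g hl hf hsupp' hw heq hdata
  have hSl := hslice e τ K σ r sl P f w he e1 hTe t0 tT t1 σ0.le hr hrq hsl g hf hsupp hw heq
  set S := {x : P2 | |x.1| ≤ Real.sqrt elo / 20 ∧ |x.2 - sl * x.1| ≤ r} with hS
  have hSd : S ⊆ Dsk 1 := fun x hx => by
    have := (hbox x hx).2
    simp only [Dsk, Set.mem_ofPred_eq]; linarith
  have hSc : IsCompact S := (isCompact_Dsk 1).of_isClosed_subset (isClosed_box _ _ _) hSd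
  have enc := en_continuous e g.hb hw
  have hY := young_int (mul_pos L0 hr) hSc hf enc (en_nonneg e0.le P w)
    (fun x hx => by by_contra hne; exact hx (hsupp x hne))
  obtain ⟨hE1, hE2⟩ := weight_bounds (P := P) (w := w) (r := 1 + σ / 2) hθ hθ1 e0 (by linarith)
    hl.smooth.continuous enc
  exact final_alg hθ hθ1 hC1 hL hr D0 hM hE1 hE2 hY hSl

end Vale.Agent.P229
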