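import Mathlib

/-!
# P229 seat C: pointwise algebra of the multiplier
-/

namespace Vale.Agent.P229

theorem amul {a b A B : ℝ} (ha : |a| ≤ A) (hb : |b| ≤ B) : |a * b| ≤ A * B := by
  rw [abs_mul]; exact mul_le_mul ha hb (abs_nonneg _) (le_trans (abs_nonneg _) ha)

/-- The quadratic form left by the multiplier `W (s p + y s₁ u / 2)`; `β` is `β + a₁`. -/
noncomputable def Qf (W k s s1 s11 y a a1 a2 b b1 β c u p : ℝ) : ℝ :=
  s1 * (W / 4 + k * s ^ 2 / 2) * u ^ 2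
    + (W * (a * s1 / 4 - a1 * s / 2 - s1 * y * (a2 - b * a1) / 4 - a * b1 * y * s1 / 2)
        + k * s ^ 2 * a * s1 / 2) * p ^ 2
    + a * y * (k * s * s1 ^ 2 + W * s11) / 2 * u * p
    + (β * p + c * (u + b * p)) * (W * (s * p + y / 2 * s1 * u))

/-- Pocket data at one point. -/
structure Pt (e τ x y s s1 s11 a a1 a2 b b1 β c : ℝ) : Prop where
  hx : |x| ≤ 21/20
  hy : |y| ≤ 21/20
  hs : |s - x| ≤ 5 * τ
  hs1 : |s1 - 1| ≤ 4 * τ
  hs11 : |s11| ≤ 8 * τ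
  ha : |a - e * (1 - (x ^ 2 + y ^ 2))| ≤ τ * e
  ha1 : |a1 + 2 * e * x| ≤ τ * e
  ha2 : |a2 + 2 * e * y| ≤ τ * e
  hb : |b| ≤ τ
  hb1 : |b1| ≤ τ
  hβ : |β| ≤ τ * e
  hc : |c| ≤ τ * e

theorem pt_bounds {e τ x y s s1 s11 a a1 a2 b b1 β c : ℝ}
    (h : Pt e τ x y s s1 s11 a a1 a2 b b1 β c)
    (e0 : 0 < e) (e1 : e ≤ 1) (t0 : 0 < τ) (t1 : τ ≤ 1/1000) (hr : x ^ 2 + y ^ 2 ≤ 11/10) :
    (9/10 ≤ s1 ∧ s1 ≤ 11/10) ∧ |s1| ≤ 11/10 ∧ |s| ≤ 11/10 ∧ |a| ≤ 2 * e ∧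
    e / 4 - 16 * τ * e ≤
      a * s1 / 4 - a1 * s / 2 - s1 * y * (a2 - b * a1) / 4 - a * b1 * y * s1 / 2 := by
  obtain ⟨hx, hy, hs, hs1, hs11, ha, ha1, ha2, hb, hb1, hβ, hc⟩ := h
  have te : 0 ≤ τ * e := by positivity
  have s1b : 9/10 ≤ s1 ∧ s1 ≤ 11/10 := by
    constructor <;> linarith [(abs_le.mp hs1).1, (abs_le.mp hs1).2]
  have s1a : |s1| ≤ 11/10 := abs_le.mpr ⟨by linarith [s1b.1], s1b.2⟩
  have sa : |s| ≤ 11/10 := by
    have := abs_add_le (s - x) x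
    rw [sub_add_cancel] at this; linarith
  have r1 : |1 - (x ^ 2 + y ^ 2)| ≤ 11/10 :=
    abs_le.mpr ⟨by linarith [sq_nonneg x, sq_nonneg y], by linarith [sq_nonneg x, sq_nonneg y]⟩
  have e2x : |2 * e * x| ≤ 2 * e * (21/20) := by
    have := amul (abs_of_pos (show (0:ℝ) < 2 * e by positivity)).le hx; linarith
  have e2y : |2 * e * y| ≤ 2 * e * (21/20) := by
    have := amul (abs_of_pos (show (0:ℝ) < 2 * e by positivity)).le hy; linarith
  have a1b : |a1| ≤ 3 * e := by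
    have h1 := abs_sub (a1 + 2 * e * x) (2 * e * x)
    rw [add_sub_cancel_right] at h1
    linarith [mul_le_mul_of_nonneg_right t1 e0.le]
  have a2b : |a2| ≤ 3 * e := by
    have h1 := abs_sub (a2 + 2 * e * y) (2 * e * y)
    rw [add_sub_cancel_right] at h1
    linarith [mul_le_mul_of_nonneg_right t1 e0.le]
  have ab : |a| ≤ 2 * e := by
    have h1 := abs_add_le (a - e * (1 - (x ^ 2 + y ^ 2))) (e * (1 - (x ^ 2 + y ^ 2)))
    rw [sub_add_cancel] at h1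
    have := amul (abs_of_pos e0).le r1
    linarith [mul_le_mul_of_nonneg_right t1 e0.le]
  have A1 : |a * s1 - e * (1 - (x ^ 2 + y ^ 2))| ≤ 6 * τ * e := by
    have := abs_add_le ((a - e * (1 - (x ^ 2 + y ^ 2))) * s1)
      (e * (1 - (x ^ 2 + y ^ 2)) * (s1 - 1))
    rw [show (a - e * (1 - (x ^ 2 + y ^ 2))) * s1 + e * (1 - (x ^ 2 + y ^ 2)) * (s1 - 1)
      = a * s1 - e * (1 - (x ^ 2 + y ^ 2)) by ring] at this
    linarith [amul ha s1a, amul (amul (abs_of_pos e0).le r1) hs1]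
  have A2 : |a1 * s + 2 * e * x ^ 2| ≤ 13 * τ * e := by
    have := abs_add_le ((a1 + 2 * e * x) * s) (2 * e * x * (x - s))
    rw [show (a1 + 2 * e * x) * s + 2 * e * x * (x - s) = a1 * s + 2 * e * x ^ 2 by ring] at this
    linarith [amul ha1 sa, amul e2x (show |x - s| ≤ 5 * τ by rw [abs_sub_comm]; exact hs)]
  have Vb : |a2 - b * a1| ≤ 4 * e := by
    have := abs_sub a2 (b * a1)
    linarith [amul hb a1b, mul_le_mul_of_nonneg_right t1 e0.le]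
  have A3 : |s1 * y * (a2 - b * a1) + 2 * e * y ^ 2| ≤ 23 * τ * e := by
    have h1 := abs_add_le ((s1 - 1) * (y * (a2 - b * a1))) (y * (a2 + 2 * e * y) + -(y * (b * a1)))
    have h2 := abs_add_le (y * (a2 + 2 * e * y)) (-(y * (b * a1)))
    rw [show (s1 - 1) * (y * (a2 - b * a1)) + (y * (a2 + 2 * e * y) + -(y * (b * a1)))
      = s1 * y * (a2 - b * a1) + 2 * e * y ^ 2 by ring] at h1
    rw [abs_neg] at h2
    linarith [amul hs1 (amul hy Vb), amul hy ha2, amul hy (amul hb a1b)]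
  have A4 : |a * b1 * y * s1| ≤ 3 * τ * e := by linarith [amul (amul (amul ab hb1) hy) s1a]
  have P0 : e / 4 - 16 * τ * e ≤
      a * s1 / 4 - a1 * s / 2 - s1 * y * (a2 - b * a1) / 4 - a * b1 * y * s1 / 2 := by
    linarith [(abs_le.mp A1).1, (abs_le.mp A2).2, (abs_le.mp A3).2, (abs_le.mp A4).2,
      mul_nonneg e0.le (sq_nonneg x), mul_nonneg e0.le (sq_nonneg y)]
  exact ⟨s1b, s1a, sa, ab, P0⟩

theorem pt_mixed {e τ x y s s1 s11 a a1 a2 b b1 β c : ℝ}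
    (h : Pt e τ x y s s1 s11 a a1 a2 b b1 β c)
    (e0 : 0 < e) (e1 : e ≤ 1) (t0 : 0 < τ) (t1 : τ ≤ 1/1000) (hr : x ^ 2 + y ^ 2 ≤ 11/10) (u p : ℝ) :
    |a * y * s11 / 2 * (u * p)| ≤ 5 * τ * (u ^ 2 + e * p ^ 2) ∧
    |(β * p + c * (u + b * p)) * (s * p + y / 2 * s1 * u)| ≤ 6 * τ * (u ^ 2 + e * p ^ 2) := by
  obtain ⟨s1b, s1a, sa, ab, -⟩ := pt_bounds h e0 e1 t0 t1 hr
  obtain ⟨hx, hy, hs, hs1, hs11, ha, ha1, ha2, hb, hb1, hβ, hc⟩ := h
  have te : 0 ≤ τ * e := by positivity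
  have up : |u * p| * e ≤ (u ^ 2 + e * p ^ 2) / 2 := by
    rw [show |u * p| * e = |u * p * e| by rw [abs_mul (u * p), abs_of_pos e0], abs_le]
    constructor <;> nlinarith [sq_nonneg (u + e * p), sq_nonneg (u - e * p),
      mul_nonneg (mul_nonneg e0.le (sub_nonneg.mpr e1)) (sq_nonneg p)]
  have X1 : |a * y * s11 / 2 * (u * p)| ≤ 5 * τ * (u ^ 2 + e * p ^ 2) := by
    have h1 := amul (amul (amul ab hy) hs11) (le_refl |u * p|)
    have h2 := mul_le_mul_of_nonneg_left up t0.le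
    rw [show a * y * s11 / 2 * (u * p) = a * y * s11 * (u * p) / 2 by ring, abs_div, abs_two]
    linarith [mul_nonneg t0.le (show (0:ℝ) ≤ u ^ 2 + e * p ^ 2 by positivity)]
  have X2 : |(β * p + c * (u + b * p)) * (s * p + y / 2 * s1 * u)|
      ≤ 6 * τ * (u ^ 2 + e * p ^ 2) := by
    have h1 : |β * p + c * (u + b * p)| ≤ τ * e * (2 * |p| + |u|) := by
      have := abs_add_le (β * p) (c * (u + b * p))
      have h3 : |u + b * p| ≤ |u| + |p| := by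
        have := abs_add_le u (b * p)
        linarith [amul hb (le_refl |p|), mul_le_mul_of_nonneg_right (show τ ≤ 1 by linarith)
          (abs_nonneg p)]
      linarith [amul hβ (le_refl |p|), amul hc h3]
    have h2 : |s * p + y / 2 * s1 * u| ≤ 2 * |p| + |u| := by
      have := abs_add_le (s * p) (y / 2 * s1 * u)
      have hy2 : |y / 2| ≤ 21/40 := by rw [abs_div, abs_two]; linarith
      linarith [amul sa (le_refl |p|), amul (amul hy2 s1a) (le_refl |u|), abs_nonneg p, abs_nonneg u]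
    have h4 := amul h1 h2
    have hq : (2 * |p| + |u|) ^ 2 ≤ 5 * (p ^ 2 + u ^ 2) := by
      linarith [sq_nonneg (|p| - 2 * |u|), sq_abs p, sq_abs u]
    have h5 : e * (2 * |p| + |u|) ^ 2 ≤ 5 * (u ^ 2 + e * p ^ 2) := by
      linarith [mul_le_mul_of_nonneg_left hq e0.le, mul_le_mul_of_nonneg_right e1 (sq_nonneg u)]
    calc _ ≤ _ := h4
      _ = τ * (e * (2 * |p| + |u|) ^ 2) := by ring
      _ ≤ τ * (5 * (u ^ 2 + e * p ^ 2)) := mul_le_mul_of_nonneg_left h5 t0.le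
      _ ≤ _ := by linarith [mul_nonneg t0.le (show (0:ℝ) ≤ u ^ 2 + e * p ^ 2 by positivity)]
  exact ⟨X1, X2⟩

theorem pt_block {e τ x y s s1 s11 a a1 a2 b b1 β c : ℝ}
    (h : Pt e τ x y s s1 s11 a a1 a2 b b1 β c)
    (e0 : 0 < e) (e1 : e ≤ 1) (t0 : 0 < τ) (t1 : τ ≤ 1/1000) (hr : x ^ 2 + y ^ 2 ≤ 11/10)
    {σ θ B k : ℝ} (hσ : 0 ≤ σ) (hσ1 : σ ≤ 1/10) (hsea : -(3 * σ * e) ≤ a) (hθ : 0 < θ)
    (hk : 0 ≤ k) (hkB : k * e ≤ B) (hBσ : B * σ ≤ θ / 100)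
    (hks : k ≠ 0 → 9/100 * e ≤ s ^ 2 ∧ s ^ 2 ≤ 3/10 * e) (u p : ℝ) :
    -(θ / 25) * (e * p ^ 2) ≤
      k * s1 * (s ^ 2 * u ^ 2 + a * s ^ 2 * p ^ 2 + a * y * s * s1 * (u * p)) := by
  obtain ⟨s1b, s1a, sa, ab, -⟩ := pt_bounds h e0 e1 t0 t1 hr
  obtain ⟨hx, hy, hs, hs1, hs11, ha, ha1, ha2, hb, hb1, hβ, hc⟩ := h
  have hep : 0 ≤ θ * (e * p ^ 2) := by positivity
  by_cases hk0 : k = 0
  · subst hk0
    simp only [zero_mul]; linarith
  obtain ⟨sl, su⟩ := hks hk0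
  have s10 : (0:ℝ) ≤ s1 := by linarith [s1b.1]
  have hid : s ^ 2 * u ^ 2 + a * s ^ 2 * p ^ 2 + a * y * s * s1 * (u * p)
      = (s * u + a * y * s1 * p / 2) ^ 2
        + a * p ^ 2 * (s ^ 2 - a * (y * s1) ^ 2 / 4) := by ring
  rw [hid, mul_add]
  have h0 : 0 ≤ k * s1 * (s * u + a * y * s1 * p / 2) ^ 2 := by positivity
  by_cases ha0 : 0 ≤ a
  · have h1 : a ≤ e * (1 - y ^ 2 + τ) := by
      linarith [(abs_le.mp ha).2, mul_nonneg e0.le (sq_nonneg x)]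
    have h2 : y ^ 2 * (1 - y ^ 2 + τ) ≤ 1/4 + 2 * τ := by
      have : y ^ 2 ≤ 2 := by linarith [sq_nonneg x]
      linarith [sq_nonneg (y ^ 2 - 1/2), mul_le_mul_of_nonneg_right this t0.le]
    have hay : a * y ^ 2 ≤ e * (1/4 + 2 * τ) := by
      linarith [mul_le_mul_of_nonneg_right h1 (sq_nonneg y), mul_le_mul_of_nonneg_left h2 e0.le]
    have hs2 : s1 ^ 2 ≤ 121/100 := by
      linarith [pow_le_pow_left₀ s10 s1b.2 2]
    have h3 : a * y ^ 2 * s1 ^ 2 ≤ e * (1/4 + 2 * τ) * (121/100) :=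
      mul_le_mul hay hs2 (sq_nonneg _) (by positivity)
    have h4 : 0 ≤ s ^ 2 - a * (y * s1) ^ 2 / 4 := by
      rw [mul_pow, ← mul_assoc]
      linarith [mul_le_mul_of_nonneg_left t1 e0.le]
    have : 0 ≤ k * s1 * (a * p ^ 2 * (s ^ 2 - a * (y * s1) ^ 2 / 4)) := by positivity
    linarith
  · push Not at ha0
    have ys : (y * s1) ^ 2 ≤ 7/5 := by
      rw [← sq_abs]
      have := pow_le_pow_left₀ (abs_nonneg _) (amul hy s1a) 2
      linarith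
    have na : -a ≤ 3 * σ * e := by linarith
    have q1 : -a * (y * s1) ^ 2 ≤ 3 * σ * e * (7/5) :=
      mul_le_mul na ys (sq_nonneg _) (by positivity)
    have q0 : 0 ≤ -a * (y * s1) ^ 2 := mul_nonneg (by linarith) (sq_nonneg _)
    have h1 : 0 ≤ s ^ 2 - a * (y * s1) ^ 2 / 4 := by linarith [sq_nonneg s]
    have h2 : s ^ 2 - a * (y * s1) ^ 2 / 4 ≤ e := by
      linarith [mul_le_mul_of_nonneg_right hσ1 e0.le]
    have h3 : -a * (s ^ 2 - a * (y * s1) ^ 2 / 4) ≤ 3 * σ * e * e :=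
      mul_le_mul na h2 h1 (by positivity)
    have h4 : k * s1 * (-a * (s ^ 2 - a * (y * s1) ^ 2 / 4)) ≤ k * (11/10) * (3 * σ * e * e) :=
      mul_le_mul (mul_le_mul_of_nonneg_left s1b.2 hk) h3
        (mul_nonneg (by linarith) h1) (by positivity)
    have h5 : k * e * σ ≤ θ / 100 :=
      le_trans (mul_le_mul_of_nonneg_right hkB hσ) hBσ
    have h6 : k * s1 * (-a * (s ^ 2 - a * (y * s1) ^ 2 / 4)) ≤ θ / 25 * e := by
      linarith [mul_le_mul_of_nonneg_right h5 e0.le, mul_pos hθ e0]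
    linarith [mul_le_mul_of_nonneg_right h6 (sq_nonneg p)]

theorem q_lower {e τ σ θ B x y W k s s1 s11 a a1 a2 b b1 β c : ℝ}
    (h : Pt e τ x y s s1 s11 a a1 a2 b b1 β c) (u p : ℝ)
    (e0 : 0 < e) (e1 : e ≤ 1) (t0 : 0 < τ) (t1 : τ ≤ 1/1000) (hr : x ^ 2 + y ^ 2 ≤ 11/10)
    (hσ : 0 ≤ σ) (hσ1 : σ ≤ 1/10) (hsea : -(3 * σ * e) ≤ a)
    (hθ : 0 < θ) (hW : θ ≤ W) (hk : 0 ≤ k) (hkB : k * e ≤ B) (hBσ : B * σ ≤ θ / 100)
    (hks : k ≠ 0 → 9/100 * e ≤ s ^ 2 ∧ s ^ 2 ≤ 3/10 * e) :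
    W / 16 * (u ^ 2 + e * p ^ 2) ≤ Qf W k s s1 s11 y a a1 a2 b b1 β c u p := by
  have Wp : 0 < W := lt_of_lt_of_le hθ hW
  obtain ⟨s1b, -, -, -, P0⟩ := pt_bounds h e0 e1 t0 t1 hr
  obtain ⟨X1, X2⟩ := pt_mixed h e0 e1 t0 t1 hr u p
  have K0 := pt_block h e0 e1 t0 t1 hr hσ hσ1 hsea hθ hk hkB hBσ hks u p
  have hu : (1/5) * u ^ 2 ≤ s1 / 4 * u ^ 2 :=
    mul_le_mul_of_nonneg_right (by linarith [s1b.1]) (sq_nonneg u)
  have hp := mul_le_mul_of_nonneg_right P0 (sq_nonneg p)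
  have main : (1/8) * (u ^ 2 + e * p ^ 2) ≤ s1 / 4 * u ^ 2
      + (a * s1 / 4 - a1 * s / 2 - s1 * y * (a2 - b * a1) / 4 - a * b1 * y * s1 / 2) * p ^ 2
      + a * y * s11 / 2 * (u * p)
      + (β * p + c * (u + b * p)) * (s * p + y / 2 * s1 * u) := by
    have := (abs_le.mp X1).1
    have := (abs_le.mp X2).1
    have h5 := mul_le_mul_of_nonneg_right t1 (show (0:ℝ) ≤ u ^ 2 + e * p ^ 2 by positivity)
    have h6 := mul_le_mul_of_nonneg_right t1 (show (0:ℝ) ≤ e * p ^ 2 by positivity)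
    nlinarith [sq_nonneg u, mul_nonneg e0.le (sq_nonneg p)]
  have mW := mul_le_mul_of_nonneg_left main Wp.le
  have hθW : θ * (e * p ^ 2) ≤ W * (u ^ 2 + e * p ^ 2) :=
    mul_le_mul hW (by linarith [sq_nonneg u]) (by positivity) Wp.le
  have key : Qf W k s s1 s11 y a a1 a2 b b1 β c u p
      = W * (s1 / 4 * u ^ 2
      + (a * s1 / 4 - a1 * s / 2 - s1 * y * (a2 - b * a1) / 4 - a * b1 * y * s1 / 2) * p ^ 2
      + a * y * s11 / 2 * (u * p)
      + (β * p + c * (u + b * p)) * (s * p + y / 2 * s1 * u))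
      + k * s1 * (s ^ 2 * u ^ 2 + a * s ^ 2 * p ^ 2 + a * y * s * s1 * (u * p)) / 2 := by
    unfold Qf; ring
  rw [key]
  linarith [mul_nonneg Wp.le (show (0:ℝ) ≤ u ^ 2 + e * p ^ 2 by positivity)]

/-- Lower bound of the flux through a line of bounded slope. -/
theorem flux_lower {e T sl a b u p : ℝ} (e0 : 0 < e) (e1 : T * Real.sqrt e ≤ 1/40)
    (hsl : |sl| ≤ T) (hb : |sl * b| ≤ 1/10) (hl : e / 2 ≤ a) (hu : a ≤ 2 * e) :
    (u ^ 2 + e * p ^ 2) / 10 ≤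
      (1 + sl * b) * ((u ^ 2 + a * p ^ 2) / 2) + sl * a * (p * u) := by
  set q := Real.sqrt e with hq
  have hqq : q * q = e := Real.mul_self_sqrt e0.le
  have q0 : 0 ≤ q := Real.sqrt_nonneg _
  have T0 : 0 ≤ T := le_trans (abs_nonneg _) hsl
  have h1 : 9/10 * ((u ^ 2 + e / 2 * p ^ 2) / 2) ≤ (1 + sl * b) * ((u ^ 2 + a * p ^ 2) / 2) := by
    apply mul_le_mul (by linarith [(abs_le.mp hb).1]) _ (by positivity)
      (by linarith [(abs_le.mp hb).1])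
    nlinarith [sq_nonneg p]
  have ha : |a| ≤ 2 * e := abs_le.mpr ⟨by linarith, hu⟩
  have h2 := amul (amul hsl ha) (le_refl |p * u|)
  have h3 : 2 * (q * |p * u|) ≤ u ^ 2 + e * p ^ 2 := by
    rw [abs_mul, ← hqq]
    nlinarith [sq_nonneg (|u| - q * |p|), sq_abs p, sq_abs u]
  have h4 : T * (2 * e) * |p * u| ≤ (u ^ 2 + e * p ^ 2) / 40 := by
    have : T * (2 * e) * |p * u| = T * q * (2 * (q * |p * u|)) := by rw [← hqq]; ring
    rw [this]
    calc T * q * (2 * (q * |p * u|)) ≤ 1/40 * (u ^ 2 + e * p ^ 2) :=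
          mul_le_mul e1 h3 (by positivity) (by norm_num)
      _ = _ := by ring
  linarith [(abs_le.mp h2).1, sq_nonneg u, mul_nonneg e0.le (sq_nonneg p)]

/-- Crude bounds on flux and remainder of the slice identity. -/
theorem flux_upper {e T sl a a1 a2 b b1 β c u p : ℝ} (e0 : 0 < e) (e1 : e ≤ 1)
    (hsl : |sl| ≤ T) (ha : |a| ≤ 2 * e) (ha1 : |a1| ≤ 4 * e) (ha2 : |a2| ≤ 4 * e)
    (hb : |b| ≤ 1) (hb1 : |b1| ≤ 1) (hβ : |β| ≤ e) (hc : |c| ≤ e) :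
    |(1 + sl * b) * ((u ^ 2 + a * p ^ 2) / 2) + sl * a * (p * u)| ≤ 4 * (1 + T) * (u ^ 2 + e * p ^ 2) ∧
    |-b * ((u ^ 2 + a * p ^ 2) / 2) - a * (p * u)| ≤ 4 * (u ^ 2 + e * p ^ 2) ∧
    |b1 * ((u ^ 2 + a * p ^ 2) / 2) - (a2 - b * a1) * p ^ 2 / 2 - a * b1 * p ^ 2
        + (β * p + c * (u + b * p)) * u| ≤ 12 * (u ^ 2 + e * p ^ 2) := by
  have T0 : 0 ≤ T := le_trans (abs_nonneg _) hsl
  set N := u ^ 2 + e * p ^ 2 with hN
  have hu : |u ^ 2| ≤ N := by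
    rw [abs_of_nonneg (sq_nonneg u), hN]; linarith [mul_nonneg e0.le (sq_nonneg p)]
  have hp : |a * p ^ 2| ≤ 2 * N := by
    have := amul ha (abs_of_nonneg (sq_nonneg p)).le
    linarith [sq_nonneg u]
  have hJ : |(u ^ 2 + a * p ^ 2) / 2| ≤ 3/2 * N := by
    have := abs_add_le (u ^ 2) (a * p ^ 2)
    rw [abs_div, abs_two]; linarith
  have hpu : |p * u| * e ≤ N / 2 := by
    rw [show |p * u| * e = |p * u * e| by rw [abs_mul (p * u), abs_of_pos e0], abs_le, hN]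
    constructor <;> nlinarith [sq_nonneg (u + e * p), sq_nonneg (u - e * p),
      mul_nonneg (mul_nonneg e0.le (sub_nonneg.mpr e1)) (sq_nonneg p)]
  have hapu : |a * (p * u)| ≤ N := by
    have := amul ha (le_refl |p * u|); linarith
  have hN0 : 0 ≤ N := by rw [hN]; positivity
  refine ⟨?_, ?_, ?_⟩
  · have h1 : |1 + sl * b| ≤ 1 + T := by
      have := abs_add_le 1 (sl * b); rw [abs_one] at this; linarith [amul hsl hb]
    have h2 : |sl * a * (p * u)| ≤ T * N := by rw [mul_assoc]; exact amul hsl hapu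
    have := abs_add_le ((1 + sl * b) * ((u ^ 2 + a * p ^ 2) / 2)) (sl * a * (p * u))
    nlinarith [amul h1 hJ, mul_nonneg T0 hN0]
  · have h1 : |(-b) * ((u ^ 2 + a * p ^ 2) / 2)| ≤ 3/2 * N := by
      have := amul (show |(-b)| ≤ 1 by rw [abs_neg]; exact hb) hJ; linarith
    have := abs_sub ((-b) * ((u ^ 2 + a * p ^ 2) / 2)) (a * (p * u))
    linarith
  · have h1 := amul hb1 hJ
    have hV : |a2 - b * a1| ≤ 8 * e := by
      have := abs_sub a2 (b * a1); linarith [amul hb ha1]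
    have h2 : |(a2 - b * a1) * p ^ 2 / 2| ≤ 4 * N := by
      rw [abs_div, abs_two]
      have := amul hV (abs_of_nonneg (sq_nonneg p)).le
      linarith [sq_nonneg u]
    have h3 : |a * b1 * p ^ 2| ≤ 2 * N := by
      rw [show a * b1 * p ^ 2 = b1 * (a * p ^ 2) by ring]
      have := amul hb1 hp; linarith
    have h4 : |(β * p + c * (u + b * p)) * u| ≤ 3 * N := by
      rw [show (β * p + c * (u + b * p)) * u = β * (p * u) + (c * u ^ 2 + c * b * (p * u)) by ring]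
      have q1 := amul hβ (le_refl |p * u|)
      have q2 := amul hc hu
      have q3 := amul (amul hc hb) (le_refl |p * u|)
      have := abs_add_le (β * (p * u)) (c * u ^ 2 + c * b * (p * u))
      have := abs_add_le (c * u ^ 2) (c * b * (p * u))
      linarith [mul_le_mul_of_nonneg_right e1 hN0]
    have := abs_add_le (b1 * ((u ^ 2 + a * p ^ 2) / 2) - (a2 - b * a1) * p ^ 2 / 2 - a * b1 * p ^ 2)
      ((β * p + c * (u + b * p)) * u)
    have := abs_sub (b1 * ((u ^ 2 + a * p ^ 2) / 2) - (a2 - b * a1) * p ^ 2 / 2) (a * b1 * p ^ 2)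
    have := abs_sub (b1 * ((u ^ 2 + a * p ^ 2) / 2)) ((a2 - b * a1) * p ^ 2 / 2)
    linarith

end Vale.Agent.P229
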