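import Vale.Agent.P229.Calc2

/-!
# P229 seat C: weight, cutoffs and the strip function
-/

namespace Vale.Agent.P229

open scoped ContDiff

theorem st_deriv_nonneg (z : ℝ) : 0 ≤ deriv Real.smoothTransition z := by
  have hm : Monotone Real.smoothTransition := Real.smoothTransition.monotone
  exact hm.deriv_nonneg

theorem st_smooth : ContDiff ℝ ∞ Real.smoothTransition := Real.smoothTransition.contDiff

theorem st_deriv_eq_zero {z : ℝ} (h : z < 0 ∨ 1 < z) : deriv Real.smoothTransition z = 0 := by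
  rcases h with h | h
  · have e : Real.smoothTransition =ᶠ[nhds z] fun _ => (0 : ℝ) := by
      filter_upwards [Iio_mem_nhds h] with y hy using Real.smoothTransition.zero_of_nonpos hy.le
    rw [e.deriv_eq]; simp
  · have e : Real.smoothTransition =ᶠ[nhds z] fun _ => (1 : ℝ) := by
      filter_upwards [Ioi_mem_nhds h] with y hy using Real.smoothTransition.one_of_one_le hy.le
    rw [e.deriv_eq]; simp

theorem st_deriv_bound : ∃ B : ℝ, 0 ≤ B ∧ ∀ z, deriv Real.smoothTransition z ≤ B := by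
  obtain ⟨B, hB⟩ := isCompact_Icc.exists_bound_of_continuousOn
    ((st_smooth.continuous_deriv (by simp)).continuousOn (s := Set.Icc (0:ℝ) 1))
  refine ⟨max B 0, le_max_right _ _, fun z => ?_⟩
  by_cases hz : z ∈ Set.Icc (0:ℝ) 1
  · exact le_trans (le_trans (le_abs_self _) (hB z hz)) (le_max_left _ _)
  · rw [Set.mem_Icc, not_and_or, not_le, not_le] at hz
    rw [st_deriv_eq_zero hz]; exact le_max_right _ _

/-- The weight: `θ` for `t² ≤ .09 e`, one for `t² ≥ .29 e`. -/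
noncomputable def wgt (θ e t : ℝ) : ℝ :=
  θ + (1 - θ) * Real.smoothTransition ((t ^ 2 / e - 9/100) * 5)

/-- `wgt' t = t * wk t`. -/
noncomputable def wk (θ e t : ℝ) : ℝ :=
  (1 - θ) * deriv Real.smoothTransition ((t ^ 2 / e - 9/100) * 5) * (10 / e)

theorem wgt_smooth (θ e : ℝ) : ContDiff ℝ ∞ (wgt θ e) :=
  contDiff_const.add (contDiff_const.mul (st_smooth.comp
    ((((contDiff_id.pow 2).div_const e).sub contDiff_const).mul contDiff_const)))

theorem wgt_hasDerivAt (θ e t : ℝ) : HasDerivAt (wgt θ e) (t * wk θ e t) t := by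
  have h := ((((((hasDerivAt_id t).pow 2).div_const e).sub_const (9/100 : ℝ)).mul_const (5:ℝ)))
  have h2 := ((st_smooth.differentiable (by simp) _).hasDerivAt.comp t h).const_mul (1 - θ)
  exact (h2.const_add θ).congr_deriv (by simp [wk]; ring)

theorem wgt_bounds {θ e : ℝ} (h0 : 0 ≤ θ) (h1 : θ ≤ 1) (t : ℝ) :
    θ ≤ wgt θ e t ∧ wgt θ e t ≤ 1 := by
  have a := Real.smoothTransition.nonneg ((t ^ 2 / e - 9/100) * 5)
  have b := Real.smoothTransition.le_one ((t ^ 2 / e - 9/100) * 5)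
  have hh : 0 ≤ 1 - θ := by linarith
  unfold wgt
  constructor
  · linarith [mul_nonneg hh a]
  · linarith [mul_le_mul_of_nonneg_left b hh]

theorem wgt_low {θ e t : ℝ} (he : 0 < e) (h : t ^ 2 ≤ 9/100 * e) : wgt θ e t = θ := by
  have : (t ^ 2 / e - 9/100) * 5 ≤ 0 := by
    have := (div_le_iff₀ he).mpr h
    linarith
  simp [wgt, Real.smoothTransition.zero_of_nonpos this]

theorem wgt_high {θ e t : ℝ} (he : 0 < e) (h : 54/100 * Real.sqrt e ≤ |t|) :
    wgt θ e t = 1 := by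
  have h2 : 2916/10000 * e ≤ t ^ 2 := by
    have := pow_le_pow_left₀ (by positivity) h 2
    rw [sq_abs, mul_pow, Real.sq_sqrt he.le] at this
    linarith
  have : 1 ≤ (t ^ 2 / e - 9/100) * 5 := by
    have := (le_div_iff₀ he).mpr h2
    linarith
  simp [wgt, Real.smoothTransition.one_of_one_le this]

theorem wk_props {θ e B : ℝ} (he : 0 < e) (h0 : 0 ≤ θ) (h1 : θ ≤ 1)
    (hB : ∀ z, deriv Real.smoothTransition z ≤ B) (t : ℝ) :
    0 ≤ wk θ e t ∧ wk θ e t * e ≤ 10 * B ∧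
      (wk θ e t ≠ 0 → 9/100 * e ≤ t ^ 2 ∧ t ^ 2 ≤ 3/10 * e) := by
  have hd := st_deriv_nonneg ((t ^ 2 / e - 9/100) * 5)
  refine ⟨mul_nonneg (mul_nonneg (by linarith) hd) (by positivity), ?_, ?_⟩
  · have : wk θ e t * e = (1 - θ) * deriv Real.smoothTransition ((t ^ 2 / e - 9/100) * 5) * 10 := by
      unfold wk; field_simp
    rw [this]
    have hh := mul_le_mul (show 1 - θ ≤ 1 by linarith) (hB ((t ^ 2 / e - 9/100) * 5)) hd zero_le_one
    linarith
  · intro hk
    have hz : ¬(((t ^ 2 / e - 9/100) * 5) < 0 ∨ 1 < (t ^ 2 / e - 9/100) * 5) := fun h =>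
      hk (by simp [wk, st_deriv_eq_zero h])
    push Not at hz
    have a : 9/100 ≤ t ^ 2 / e := by linarith [hz.1]
    have b : t ^ 2 / e ≤ 3/10 := by linarith [hz.2]
    exact ⟨(le_div_iff₀ he).mp a, (div_le_iff₀ he).mp b⟩

/-- Even cutoff: one for `|t| ≤ R/2`, zero for `|t| ≥ R`. -/
noncomputable def cut (R t : ℝ) : ℝ := Real.smoothTransition ((1 - (t / R) ^ 2) * (4/3))

theorem cut_smooth (R : ℝ) : ContDiff ℝ ∞ (cut R) :=
  st_smooth.comp ((contDiff_const.sub ((contDiff_id.div_const R).pow 2)).mul contDiff_const)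

theorem cut_one {R t : ℝ} (hR : 0 < R) (h : |t| ≤ R / 2) : cut R t = 1 := by
  apply Real.smoothTransition.one_of_one_le
  have h2 : (t / R) ^ 2 ≤ 1/4 := by
    rw [div_pow, div_le_iff₀ (by positivity), ← sq_abs t]
    have := pow_le_pow_left₀ (abs_nonneg t) h 2
    linarith
  linarith

theorem cut_zero {R t : ℝ} (hR : 0 < R) (h : R ≤ |t|) : cut R t = 0 := by
  apply Real.smoothTransition.zero_of_nonpos
  have h2 : 1 ≤ (t / R) ^ 2 := by
    rw [div_pow, le_div_iff₀ (by positivity), one_mul, ← sq_abs t]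
    exact pow_le_pow_left₀ hR.le h 2
  linarith

theorem cut_deriv_zero {R t : ℝ} (hR : 0 < R) (h : R < |t|) : deriv (cut R) t = 0 := by
  have e : cut R =ᶠ[nhds t] fun _ => (0 : ℝ) := by
    filter_upwards [(isOpen_lt continuous_const continuous_abs).mem_nhds h] with y hy
      using cut_zero hR (le_of_lt hy)
  rw [e.deriv_eq]; simp

theorem cut_mem (R t : ℝ) : 0 ≤ cut R t ∧ cut R t ≤ 1 :=
  ⟨Real.smoothTransition.nonneg _, Real.smoothTransition.le_one _⟩

theorem cut_deriv_bound {R : ℝ} (hR : 0 < R) : ∃ B : ℝ, 0 ≤ B ∧ ∀ t, |deriv (cut R) t| ≤ B := by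
  obtain ⟨B, hB⟩ := isCompact_Icc.exists_bound_of_continuousOn
    (((cut_smooth R).continuous_deriv (by simp)).continuousOn (s := Set.Icc (-R) R))
  refine ⟨max B 0, le_max_right _ _, fun t => ?_⟩
  by_cases ht : t ∈ Set.Icc (-R) R
  · exact le_trans (hB t ht) (le_max_left _ _)
  · rw [Set.mem_Icc, ← abs_le, not_le] at ht
    rw [cut_deriv_zero hR ht, abs_zero]; exact le_max_right _ _

/-- Disc cutoff: one for `rsq ≤ 1 + σ/2`, zero for `rsq ≥ 1 + σ`. -/
noncomputable def chi (σ : ℝ) (x : P2) : ℝ :=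
  Real.smoothTransition ((1 + σ - rsq x) * (2 / σ))

theorem rsq_smooth : ContDiff ℝ ∞ rsq := (contDiff_fst.pow 2).add (contDiff_snd.pow 2)

theorem chi_smooth (σ : ℝ) : ContDiff ℝ ∞ (chi σ) :=
  st_smooth.comp ((contDiff_const.sub rsq_smooth).mul contDiff_const)

theorem chi_one {σ : ℝ} {x : P2} (hσ : 0 < σ) (h : rsq x ≤ 1 + σ / 2) : chi σ x = 1 := by
  apply Real.smoothTransition.one_of_one_le
  calc (1:ℝ) = σ / 2 * (2 / σ) := by field_simp
    _ ≤ _ := mul_le_mul_of_nonneg_right (by linarith) (by positivity)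

theorem chi_zero {σ : ℝ} {x : P2} (hσ : 0 < σ) (h : 1 + σ ≤ rsq x) : chi σ x = 0 :=
  Real.smoothTransition.zero_of_nonpos
    (mul_nonpos_of_nonpos_of_nonneg (by linarith) (by positivity))

/-- The odd strip function `t / sqrt (r² + t²)`. -/
noncomputable def stp (r t : ℝ) : ℝ := t / Real.sqrt (r ^ 2 + t ^ 2)

theorem stp_pos {r : ℝ} (hr : 0 < r) (t : ℝ) : 0 < Real.sqrt (r ^ 2 + t ^ 2) :=
  Real.sqrt_pos.mpr (by positivity)

theorem stp_smooth {r : ℝ} (hr : 0 < r) : ContDiff ℝ ∞ (stp r) :=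
  contDiff_id.div ((contDiff_const.add (contDiff_id.pow 2)).sqrt fun t => by positivity)
    fun t => (stp_pos hr t).ne'

theorem stp_hasDerivAt {r : ℝ} (hr : 0 < r) (t : ℝ) :
    HasDerivAt (stp r) (r ^ 2 / Real.sqrt (r ^ 2 + t ^ 2) ^ 3) t := by
  have hne : r ^ 2 + t ^ 2 ≠ 0 := by positivity
  have h := (hasDerivAt_id t).div ((((hasDerivAt_id t).pow 2).const_add (r ^ 2)).sqrt hne)
    (stp_pos hr t).ne'
  refine h.congr_deriv ?_
  have hs := Real.sq_sqrt (show 0 ≤ r ^ 2 + t ^ 2 by positivity)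
  have hp := stp_pos hr t
  simp only [id, Nat.cast_ofNat, Nat.add_one_sub_one, pow_one, mul_one, one_mul, Pi.pow_apply]
  field_simp
  linear_combination hs

theorem stp_abs {r : ℝ} (hr : 0 < r) (t : ℝ) : |stp r t| ≤ 1 := by
  rw [stp, abs_div, abs_of_pos (stp_pos hr t), div_le_one (stp_pos hr t)]
  exact Real.abs_le_sqrt (by nlinarith)

theorem stp_deriv_lower {r t : ℝ} (hr : 0 < r) (h : |t| ≤ r) :
    1 / (4 * r) ≤ r ^ 2 / Real.sqrt (r ^ 2 + t ^ 2) ^ 3 := by
  have hp := stp_pos hr t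
  have h2 : t ^ 2 ≤ r ^ 2 := sq_le_sq' (abs_le.mp h).1 (abs_le.mp h).2
  have hb : Real.sqrt (r ^ 2 + t ^ 2) ≤ 3/2 * r := by
    rw [Real.sqrt_le_left (by positivity)]
    linarith [sq_nonneg r]
  have h3 := pow_le_pow_left₀ hp.le hb 3
  rw [div_le_div_iff₀ (by positivity) (by positivity)]
  calc 1 * Real.sqrt (r ^ 2 + t ^ 2) ^ 3 ≤ (3/2 * r) ^ 3 := by rw [one_mul]; exact h3
    _ ≤ r ^ 2 * (4 * r) := by nlinarith [pow_pos hr 3]

end Vale.Agent.P229
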