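import Vale.Agent.P229.Defs

/-!
# P229 seat C: interface of the weighted energy estimate

`EnergyBound` is proved in `Vale.Agent.P229.Energy`; it is not an assumption of a hand-in.
-/

namespace Vale.Agent.P229

open MeasureTheory

/-- What the energy estimate needs from the transported label `s` of `∂₂ - b ∂₁`. -/
structure LabelOK (P : Coef) (τ : ℝ) (s : P2 → ℝ) : Prop where
  smooth : ContDiff ℝ 2 s
  transport : ∀ x, d2 s x = P.b x * d1 s x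
  s0 : ∀ x ∈ Dsk (3/2), |s x - x.1| ≤ 4 * τ * |x.2|
  s1 : ∀ x ∈ Dsk (3/2), |d1 s x - 1| ≤ 4 * τ
  s11 : ∀ x ∈ Dsk (3/2), |d1 (d1 s) x| ≤ 8 * τ

/-- Energy density adapted to a pocket of size `e`. -/
noncomputable def en (e : ℝ) (P : Coef) (w : P2 → ℝ) (x : P2) : ℝ :=
  P.V w x ^ 2 + e * d1 w x ^ 2

/-- Points of the unit disc where the weight equals one. -/
def edgeSet (e : ℝ) (s : P2 → ℝ) : Set P2 :=
  {x | x ∈ Dsk 1 ∧ 54/100 * Real.sqrt e ≤ |s x|}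

/-- SEAT C. Energy off and on the band, for a forcing `f` supported in a strip of width `r`:
everywhere `≤ C r ‖f‖²`, outside the band `≤ C θ r ‖f‖²`, up to data. -/
def EnergyBound : Prop :=
  ∀ T : ℝ, 0 < T → ∃ τ₀ e₀ : ℝ, 0 < τ₀ ∧ 0 < e₀ ∧
    ∀ τ elo ehi K : ℝ, 0 < τ → τ ≤ τ₀ → 0 < elo → elo ≤ ehi → ehi ≤ e₀ → 1 ≤ K →
      ∃ C : ℝ, 0 < C ∧ ∀ θ : ℝ, 0 < θ → θ ≤ 1 →
        ∃ σ Cd : ℝ, 0 < σ ∧ σ ≤ 1/10 ∧ 0 < Cd ∧
          ∀ (e : ℝ) (P : Coef) (s : P2 → ℝ),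
            e ∈ Set.Icc elo ehi → P.Good e τ K σ → LabelOK P τ s →
            ∀ (r δ slope : ℝ) (f w : P2 → ℝ),
              0 < r → r ≤ Real.sqrt elo / 100 → 0 ≤ δ → |slope| ≤ T →
              Continuous f →
              (∀ x, f x ≠ 0 → |x.1| ≤ Real.sqrt elo / 20 ∧ |x.2 - slope * x.1| ≤ r) →
              ContDiff ℝ 3 w →
              (∀ x ∈ Dsk (3/2), P.op w x = f x) →
              (∀ x ∈ Ann (1 + σ / 2) (1 + σ), |w x| ≤ δ ∧ |d1 w x| ≤ δ ∧ |d2 w x| ≤ δ) →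
              (∫ x in Dsk (1 + σ / 2), en e P w x) ≤ C * (r * ∫ x, f x ^ 2) + Cd * δ ^ 2 ∧
                (∫ x in edgeSet e s, en e P w x) ≤ C * θ * (r * ∫ x, f x ^ 2) + Cd * δ ^ 2

end Vale.Agent.P229
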