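import Vale.Agent.P229.EnergyDefs
import Vale.Agent.P229.EnergyAlg
import Vale.Agent.P229.EnergyCut

/-!
# P229 seat C: multiplier identity and slice identity
-/

namespace Vale.Agent.P229

open scoped ContDiff

/-- The multiplier. -/
noncomputable def mlt (θ e : ℝ) (P : Coef) (s w : P2 → ℝ) (x : P2) : ℝ :=
  wgt θ e (s x) * (s x * d1 w x + x.2 / 2 * d1 s x * P.V w x)

/-- Second component of the multiplier current. -/
noncomputable def mJ2 (θ e : ℝ) (P : Coef) (s w : P2 → ℝ) (x : P2) : ℝ :=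
  wgt θ e (s x) * s x * (P.V w x * d1 w x)
    + 1/4 * (wgt θ e (s x) * x.2 * d1 s x * (P.V w x * P.V w x))
    + 1/4 * (P.a x * wgt θ e (s x) * x.2 * d1 s x * (d1 w x * d1 w x))

/-- First component of the multiplier current. -/
noncomputable def mJ1 (θ e : ℝ) (P : Coef) (s w : P2 → ℝ) (x : P2) : ℝ :=
  -(P.b x * mJ2 θ e P s w x)
    - 1/2 * (wgt θ e (s x) * s x * (P.V w x * P.V w x))
    - 1/2 * (P.a x * wgt θ e (s x) * s x * (d1 w x * d1 w x))
    - 1/2 * (P.a x * wgt θ e (s x) * x.2 * d1 s x * (P.V w x * d1 w x))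

/-- The remainder form at a point. -/
noncomputable def mQ (θ e : ℝ) (P : Coef) (s w : P2 → ℝ) (x : P2) : ℝ :=
  Qf (wgt θ e (s x)) (wk θ e (s x)) (s x) (d1 s x) (d1 (d1 s) x) x.2 (P.a x) (d1 P.a x)
    (d2 P.a x) (P.b x) (d1 P.b x) (P.β x + d1 P.a x) (P.c x) (P.V w x) (d1 w x)

/-- Energy current along the second axis. -/
noncomputable def sJ2 (P : Coef) (w : P2 → ℝ) (x : P2) : ℝ :=
  1/2 * (P.V w x * P.V w x + P.a x * (d1 w x * d1 w x))

/-- Energy current along the first axis. -/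
noncomputable def sJ1 (P : Coef) (w : P2 → ℝ) (x : P2) : ℝ :=
  -(P.b x * sJ2 P w x) - P.a x * (d1 w x * P.V w x)

theorem cV_smooth {P : Coef} {w : P2 → ℝ} (hb : ContDiff ℝ 3 P.b) (hw : ContDiff ℝ 3 w) :
    ContDiff ℝ 2 (P.V w) :=
  (cd2_smooth hw (by norm_num)).sub ((hb.of_le (by norm_num)).mul (cd1_smooth hw (by norm_num)))

theorem mJ_smooth (θ e : ℝ) {P : Coef} {s w : P2 → ℝ} (hb : ContDiff ℝ 3 P.b)
    (ha : ContDiff ℝ 3 P.a) (hs : ContDiff ℝ 2 s) (hw : ContDiff ℝ 3 w) :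
    ContDiff ℝ 1 (mJ1 θ e P s w) ∧ ContDiff ℝ 1 (mJ2 θ e P s w) := by
  have hu : ContDiff ℝ 1 (P.V w) := (cV_smooth hb hw).of_le (by norm_num)
  have hp : ContDiff ℝ 1 (d1 w) := cd1_smooth hw (by norm_num)
  have hs1 : ContDiff ℝ 1 (d1 s) := cd1_smooth hs (by norm_num)
  have hs0 : ContDiff ℝ 1 s := hs.of_le (by norm_num)
  have hW : ContDiff ℝ 1 (fun x => wgt θ e (s x)) := ((wgt_smooth θ e).of_le (by simp)).comp hs0
  have hy : ContDiff ℝ 1 (fun x : P2 => x.2) := contDiff_snd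
  have ha1 : ContDiff ℝ 1 P.a := ha.of_le (by norm_num)
  have hb1 : ContDiff ℝ 1 P.b := hb.of_le (by norm_num)
  have h2 : ContDiff ℝ 1 (mJ2 θ e P s w) := by unfold mJ2; fun_prop
  refine ⟨?_, h2⟩
  unfold mJ1; fun_prop

theorem sJ_smooth {P : Coef} {w : P2 → ℝ} (hb : ContDiff ℝ 3 P.b)
    (ha : ContDiff ℝ 3 P.a) (hw : ContDiff ℝ 3 w) :
    ContDiff ℝ 1 (sJ1 P w) ∧ ContDiff ℝ 1 (sJ2 P w) := by
  have hu : ContDiff ℝ 1 (P.V w) := (cV_smooth hb hw).of_le (by norm_num)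
  have hp : ContDiff ℝ 1 (d1 w) := cd1_smooth hw (by norm_num)
  have ha1 : ContDiff ℝ 1 P.a := ha.of_le (by norm_num)
  have hb1 : ContDiff ℝ 1 P.b := hb.of_le (by norm_num)
  have h2 : ContDiff ℝ 1 (sJ2 P w) := by unfold sJ2; fun_prop
  refine ⟨?_, h2⟩
  unfold sJ1; fun_prop

theorem hd_V {P : Coef} {w : P2 → ℝ} (hb : ContDiff ℝ 3 P.b) (hw : ContDiff ℝ 3 w) (x : P2) :
    HD (P.V w) x (d1 (d2 w) x - (d1 P.b x * d1 w x + P.b x * d1 (d1 w) x))
      (d2 (d2 w) x - (d2 P.b x * d1 w x + P.b x * d1 (d2 w) x)) := by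
  have h := (HD.of_diff (((cd2_smooth (m := 1) hw (by norm_num)).differentiable (by norm_num)) x)).sub
    ((HD.of_diff ((hb.differentiable (by norm_num)) x)).mul
      (HD.of_diff (((cd1_smooth (m := 1) hw (by norm_num)).differentiable (by norm_num)) x)))
  rw [d2_d1 (hw.of_le (by norm_num)) x] at h
  exact h

theorem hd_label {P : Coef} {s : P2 → ℝ} (hb : ContDiff ℝ 3 P.b) (hs : ContDiff ℝ 2 s)
    (htr : ∀ x, d2 s x = P.b x * d1 s x) (x : P2) :
    HD s x (d1 s x) (P.b x * d1 s x) ∧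
    HD (d1 s) x (d1 (d1 s) x) (d1 P.b x * d1 s x + P.b x * d1 (d1 s) x) := by
  have h1 := HD.of_diff (f := s) ((hs.differentiable (by norm_num)) x)
  rw [htr x] at h1
  refine ⟨h1, ?_⟩
  have hd := (cd1_smooth (m := 1) hs (by norm_num)).differentiable (by norm_num)
  have h2 := HD.of_diff (f := d1 s) (hd x)
  have e : d2 (d1 s) x = d1 P.b x * d1 s x + P.b x * d1 (d1 s) x := by
    rw [d2_d1 hs x, show d2 s = fun y => P.b y * d1 s y from funext htr]
    exact ((HD.of_diff ((hb.differentiable (by norm_num)) x)).mul (HD.of_diff (hd x))).d1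
  rwa [e] at h2

theorem op_expand {P : Coef} {w : P2 → ℝ} (hb : ContDiff ℝ 3 P.b) (hw : ContDiff ℝ 3 w) (x : P2) :
    P.op w x = d2 (d2 w) x - (d2 P.b x * d1 w x + P.b x * d1 (d2 w) x)
      - P.b x * (d1 (d2 w) x - (d1 P.b x * d1 w x + P.b x * d1 (d1 w) x))
      - P.a x * d1 (d1 w) x + P.β x * d1 w x + P.c x * d2 w x := by
  have hu := hd_V hb hw x
  have e : P.V (P.V w) x = d2 (P.V w) x - P.b x * d1 (P.V w) x := rfl
  rw [Coef.op, e, hu.d1, hu.d2]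

theorem mult_identity (θ e : ℝ) {P : Coef} {s w : P2 → ℝ} (hb : ContDiff ℝ 3 P.b)
    (ha : ContDiff ℝ 3 P.a) (hs : ContDiff ℝ 2 s) (htr : ∀ x, d2 s x = P.b x * d1 s x)
    (hw : ContDiff ℝ 3 w) (x : P2) :
    P.op w x * mlt θ e P s w x
      = (d1 (mJ1 θ e P s w) x + d2 (mJ2 θ e P s w) x) + mQ θ e P s w x := by
  obtain ⟨hS, hS1⟩ := hd_label hb hs htr x
  have hW := HD.comp (wgt_hasDerivAt θ e (s x)) hS
  have hu := hd_V hb hw x
  have hp := HD.of_diff (((cd1_smooth (m := 1) hw (by norm_num)).differentiable (by norm_num)) x)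
  rw [d2_d1 (hw.of_le (by norm_num)) x] at hp
  have hA := HD.of_diff ((ha.differentiable (by norm_num)) x)
  have hB := HD.of_diff ((hb.differentiable (by norm_num)) x)
  have hy := HD.snd x
  have J2 : HD (mJ2 θ e P s w) x _ _ :=
    ((((hW.mul hS).mul (hu.mul hp))).add ((((hW.mul hy).mul hS1).mul (hu.mul hu)).smul (1/4))).add
      (((((hA.mul hW).mul hy).mul hS1).mul (hp.mul hp)).smul (1/4))
  have J1 : HD (mJ1 θ e P s w) x _ _ :=
    ((((hB.mul J2).neg).sub (((hW.mul hS).mul (hu.mul hu)).smul (1/2))).sub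
      ((((hA.mul hW).mul hS).mul (hp.mul hp)).smul (1/2))).sub
        (((((hA.mul hW).mul hy).mul hS1).mul (hu.mul hp)).smul (1/2))
  rw [op_expand hb hw x, J1.d1, J2.d2]
  unfold mQ Qf mlt mJ2 Coef.V
  ring

theorem slice_identity {P : Coef} {w : P2 → ℝ} (hb : ContDiff ℝ 3 P.b)
    (ha : ContDiff ℝ 3 P.a) (hw : ContDiff ℝ 3 w) (x : P2) :
    P.op w x * P.V w x = (d1 (sJ1 P w) x + d2 (sJ2 P w) x)
      + (d1 P.b x * ((P.V w x ^ 2 + P.a x * d1 w x ^ 2) / 2)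
          - (d2 P.a x - P.b x * d1 P.a x) * d1 w x ^ 2 / 2 - P.a x * d1 P.b x * d1 w x ^ 2
          + ((P.β x + d1 P.a x) * d1 w x + P.c x * (P.V w x + P.b x * d1 w x)) * P.V w x) := by
  have hu := hd_V hb hw x
  have hp := HD.of_diff (((cd1_smooth (m := 1) hw (by norm_num)).differentiable (by norm_num)) x)
  rw [d2_d1 (hw.of_le (by norm_num)) x] at hp
  have hA := HD.of_diff ((ha.differentiable (by norm_num)) x)
  have hB := HD.of_diff ((hb.differentiable (by norm_num)) x)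
  have J2 : HD (sJ2 P w) x _ _ := ((hu.mul hu).add (hA.mul (hp.mul hp))).smul (1/2)
  have J1 : HD (sJ1 P w) x _ _ := ((hB.mul J2).neg).sub (hA.mul (hp.mul hu))
  rw [op_expand hb hw x, J1.d1, J2.d2]
  unfold sJ2 Coef.V
  ring

theorem sJ_flux (P : Coef) (w : P2 → ℝ) (x : P2) (sl : ℝ) :
    sJ2 P w x - sl * sJ1 P w x
      = (1 + sl * P.b x) * ((P.V w x ^ 2 + P.a x * d1 w x ^ 2) / 2)
        + sl * P.a x * (d1 w x * P.V w x) ∧
    sJ1 P w x = -P.b x * ((P.V w x ^ 2 + P.a x * d1 w x ^ 2) / 2) - P.a x * (d1 w x * P.V w x) := by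
  unfold sJ1 sJ2; constructor <;> ring

end Vale.Agent.P229
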