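import Vale.Agent.P229.EnergyId

/-!
# P229 seat C: the weighted multiplier estimate
-/

namespace Vale.Agent.P229

open MeasureTheory
open scoped ContDiff

/-- `P.op (chi σ * w) - chi σ * P.op w`. -/
noncomputable def comm (σ : ℝ) (P : Coef) (w : P2 → ℝ) (x : P2) : ℝ :=
  (d2 (d2 (chi σ)) x - (d2 P.b x * d1 (chi σ) x + P.b x * d1 (d2 (chi σ)) x)
      - P.b x * (d1 (d2 (chi σ)) x - (d1 P.b x * d1 (chi σ) x + P.b x * d1 (d1 (chi σ)) x))
      - P.a x * d1 (d1 (chi σ)) x + P.β x * d1 (chi σ) x + P.c x * d2 (chi σ) x) * w x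
    + (2 * (P.b x * P.b x) * d1 (chi σ) x - 2 * P.b x * d2 (chi σ) x
        - 2 * P.a x * d1 (chi σ) x) * d1 w x
    + (2 * d2 (chi σ) x - 2 * P.b x * d1 (chi σ) x) * d2 w x

theorem chi_mul_smooth (σ : ℝ) {w : P2 → ℝ} (hw : ContDiff ℝ 3 w) :
    ContDiff ℝ 3 (fun x => chi σ x * w x) :=
  ((chi_smooth σ).of_le (WithTop.coe_le_coe.mpr le_top)).mul hw

theorem d_chi_mul (σ : ℝ) {w : P2 → ℝ} (hw : ContDiff ℝ 3 w) :
    d1 (fun x => chi σ x * w x) = (fun x => d1 (chi σ) x * w x + chi σ x * d1 w x) ∧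
    d2 (fun x => chi σ x * w x) = (fun x => d2 (chi σ) x * w x + chi σ x * d2 w x) := by
  have h : ∀ x, HD (fun y => chi σ y * w y) x _ _ := fun x =>
    (HD.of_diff ((chi_smooth σ).differentiable (by simp) x)).mul
      (HD.of_diff (hw.differentiable (by norm_num) x))
  exact ⟨funext fun x => (h x).d1, funext fun x => (h x).d2⟩

theorem op_chi_mul (σ : ℝ) {P : Coef} {w : P2 → ℝ} (hb : ContDiff ℝ 3 P.b) (hw : ContDiff ℝ 3 w)
    (x : P2) : P.op (fun y => chi σ y * w y) x = chi σ x * P.op w x + comm σ P w x := by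
  obtain ⟨e1, e2⟩ := d_chi_mul σ hw
  have hc := HD.of_diff ((chi_smooth σ).differentiable (by simp) x)
  have hw0 := HD.of_diff (hw.differentiable (by norm_num) x)
  have hc1 := HD.of_diff
    (((cd1_smooth (n := ∞) (m := 1) (chi_smooth σ) (WithTop.coe_le_coe.mpr le_top)).differentiable (by norm_num)) x)
  have hc2 := HD.of_diff
    (((cd2_smooth (n := ∞) (m := 1) (chi_smooth σ) (WithTop.coe_le_coe.mpr le_top)).differentiable (by norm_num)) x)
  have hw1 := HD.of_diff (((cd1_smooth (m := 1) hw (by norm_num)).differentiable (by norm_num)) x)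
  have hw2 := HD.of_diff (((cd2_smooth (m := 1) hw (by norm_num)).differentiable (by norm_num)) x)
  have h1 := (hc1.mul hw0).add (hc.mul hw1)
  have h2 := (hc2.mul hw0).add (hc.mul hw2)
  rw [op_expand hb (chi_mul_smooth σ hw) x, op_expand hb hw x, e1, e2, h1.d1, h2.d1, h2.d2]
  unfold comm
  ring

theorem chi_grad_zero {σ : ℝ} (hσ : 0 < σ) {x : P2} (hx : rsq x ≤ 1 + σ / 2) :
    d1 (chi σ) x = 0 ∧ d2 (chi σ) x = 0 := by
  have hm : IsLocalMax (chi σ) x := Filter.Eventually.of_forall fun y => by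
    rw [chi_one hσ hx]; exact Real.smoothTransition.le_one _
  have h0 := hm.fderiv_eq_zero
  constructor <;> simp [d1, d2, h0]

theorem chi_mul_low {σ : ℝ} (hσ : 0 < σ) {P : Coef} {w : P2 → ℝ} (hw : ContDiff ℝ 3 w) {x : P2}
    (hx : rsq x ≤ 1 + σ / 2) :
    d1 (fun y => chi σ y * w y) x = d1 w x ∧ P.V (fun y => chi σ y * w y) x = P.V w x := by
  obtain ⟨z1, z2⟩ := chi_grad_zero hσ hx
  obtain ⟨e1, e2⟩ := d_chi_mul σ hw
  unfold Coef.V
  rw [e1, e2]
  simp [z1, z2, chi_one hσ hx]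

theorem comm_low {σ : ℝ} (hσ : 0 < σ) {P : Coef} {w : P2 → ℝ} {x : P2}
    (hx : rsq x < 1 + σ / 2) : comm σ P w x = 0 := by
  have ev : ∀ᶠ y in nhds x, rsq y < 1 + σ / 2 :=
    (isOpen_lt rsq_smooth.continuous continuous_const).mem_nhds hx
  have q1 : d1 (chi σ) =ᶠ[nhds x] fun _ => (0:ℝ) :=
    ev.mono fun y hy => (chi_grad_zero hσ (le_of_lt hy)).1
  have q2 : d2 (chi σ) =ᶠ[nhds x] fun _ => (0:ℝ) :=
    ev.mono fun y hy => (chi_grad_zero hσ (le_of_lt hy)).2
  obtain ⟨z1, z2⟩ := chi_grad_zero hσ hx.le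
  have z11 : d1 (d1 (chi σ)) x = 0 := by
    change fderiv ℝ (d1 (chi σ)) x (1, 0) = 0
    rw [q1.fderiv_eq]; simp
  have z12 : d1 (d2 (chi σ)) x = 0 := by
    change fderiv ℝ (d2 (chi σ)) x (1, 0) = 0
    rw [q2.fderiv_eq]; simp
  have z22 : d2 (d2 (chi σ)) x = 0 := by
    change fderiv ℝ (d2 (chi σ)) x (0, 1) = 0
    rw [q2.fderiv_eq]; simp
  simp [comm, z1, z2, z11, z12, z22]

theorem zero_outside {P : Coef} {v : P2 → ℝ} {x : P2} (h : x ∉ tsupport v) :
    d1 v x = 0 ∧ P.V v x = 0 := by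
  have := fderiv_of_notMem_tsupport ℝ h
  constructor <;> simp [d1, d2, Coef.V, this]

theorem chi_mul_tsupport {σ : ℝ} (hσ : 0 < σ) (w : P2 → ℝ) :
    tsupport (fun y => chi σ y * w y) ⊆ Dsk (1 + σ) := by
  refine closure_minimal (fun y hy => ?_) (isClosed_le rsq_smooth.continuous continuous_const)
  by_contra h
  simp only [Dsk, Set.mem_ofPred_eq, not_le] at h
  exact hy (by simp [chi_zero hσ h.le])

theorem chi_derivs_bound (σ : ℝ) : ∃ N : ℝ, 1 ≤ N ∧ ∀ x ∈ Dsk (1 + σ),
    |chi σ x| ≤ N ∧ |d1 (chi σ) x| ≤ N ∧ |d2 (chi σ) x| ≤ N ∧ |d1 (d1 (chi σ)) x| ≤ N ∧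
    |d1 (d2 (chi σ)) x| ≤ N ∧ |d2 (d2 (chi σ)) x| ≤ N := by
  have c1 : ContDiff ℝ 1 (d1 (chi σ)) := cd1_smooth (chi_smooth σ) (WithTop.coe_le_coe.mpr le_top)
  have c2 : ContDiff ℝ 1 (d2 (chi σ)) := cd2_smooth (chi_smooth σ) (WithTop.coe_le_coe.mpr le_top)
  have h : ContinuousOn (fun x => |chi σ x| + |d1 (chi σ) x| + |d2 (chi σ) x|
      + |d1 (d1 (chi σ)) x| + |d1 (d2 (chi σ)) x| + |d2 (d2 (chi σ)) x|) (Dsk (1 + σ)) := by
    have a1 : Continuous (d1 (d1 (chi σ))) := (cd1_smooth (m := 0) c1 (by simp)).continuous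
    have a2 : Continuous (d1 (d2 (chi σ))) := (cd1_smooth (m := 0) c2 (by simp)).continuous
    have a3 : Continuous (d2 (d2 (chi σ))) := (cd2_smooth (m := 0) c2 (by simp)).continuous
    exact (((((((chi_smooth σ).continuous).abs.add c1.continuous.abs).add c2.continuous.abs).add
      a1.abs).add a2.abs).add a3.abs).continuousOn
  obtain ⟨N, hN⟩ := (isCompact_Dsk (1 + σ)).exists_bound_of_continuousOn h
  refine ⟨max N 1, le_max_right _ _, fun x hx => ?_⟩
  have hb := le_trans (le_abs_self _) (le_trans (hN x hx) (le_max_left N 1))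
  have := abs_nonneg (chi σ x)
  have := abs_nonneg (d1 (chi σ) x)
  have := abs_nonneg (d2 (chi σ) x)
  have := abs_nonneg (d1 (d1 (chi σ)) x)
  have := abs_nonneg (d1 (d2 (chi σ)) x)
  have := abs_nonneg (d2 (d2 (chi σ)) x)
  exact ⟨by linarith, by linarith, by linarith, by linarith, by linarith, by linarith⟩

theorem good_zero {P : Coef} {e τ K σ : ℝ} (g : P.Good e τ K σ) (x : P2) :
    |P.a x| ≤ K ∧ |P.β x| ≤ K ∧ |P.c x| ≤ K := by
  have h1 := g.ka x 0 (by norm_num)
  have h2 := g.kβ x 0 (by norm_num)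
  have h3 := g.kc x 0 (by norm_num)
  rw [norm_iteratedFDeriv_zero, Real.norm_eq_abs] at h1 h2 h3
  exact ⟨h1, h2, h3⟩

/-- Cut-off terms are bounded by the data. -/
theorem comm_bound (σ : ℝ) (hσ1 : σ ≤ 1/10) {K : ℝ} (hK : 1 ≤ K) :
    ∃ M : ℝ, 0 ≤ M ∧ ∀ (θ e τ δ : ℝ) (P : Coef) (s w : P2 → ℝ), 0 ≤ θ → θ ≤ 1 → τ ≤ 1/1000 →
      P.Good e τ K σ → LabelOK P τ s → ContDiff ℝ 3 w → ∀ x ∈ Dsk (1 + σ),
      |w x| ≤ δ → |d1 w x| ≤ δ → |d2 w x| ≤ δ →
      |comm σ P w x * mlt θ e P s (fun y => chi σ y * w y) x| ≤ M * δ ^ 2 := by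
  obtain ⟨N, hN1, hN⟩ := chi_derivs_bound σ
  refine ⟨(30 * K * N) * (16 * N), by positivity, ?_⟩
  intro θ e τ δ P s w hθ hθ1 ht g hl hw x hx hw0 hw1 hw2
  obtain ⟨n0, n1, n2, n11, n12, n22⟩ := hN x hx
  obtain ⟨ka, kβ, kc⟩ := good_zero g x
  have hb := le_trans (g.b0 x) ht
  have hb1 := le_trans (g.b1 x) ht
  have hb2 := le_trans (g.b2 x) ht
  have δ0 : 0 ≤ δ := le_trans (abs_nonneg _) hw0
  have N0 : 0 ≤ N := by linarith
  have b01 : |P.b x| ≤ 1 := by linarith
  have b11 : |d1 P.b x| ≤ 1 := by linarith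
  have b21 : |d2 P.b x| ≤ 1 := by linarith
  have KN : N ≤ K * N := le_mul_of_one_le_left N0 hK
  obtain ⟨e1, e2⟩ := d_chi_mul σ hw
  have A0 : |d2 (d2 (chi σ)) x - (d2 P.b x * d1 (chi σ) x + P.b x * d1 (d2 (chi σ)) x)
      - P.b x * (d1 (d2 (chi σ)) x - (d1 P.b x * d1 (chi σ) x + P.b x * d1 (d1 (chi σ)) x))
      - P.a x * d1 (d1 (chi σ)) x + P.β x * d1 (chi σ) x + P.c x * d2 (chi σ) x| ≤ 10 * (K * N) := by
    have p1 := amul b21 n1
    have p2 := amul b01 n12
    have p3a := amul b11 n1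
    have p3b := amul b01 n11
    have p4 := amul ka n11
    have p5 := amul kβ n1
    have p6 := amul kc n2
    have i1 : |d1 (d2 (chi σ)) x - (d1 P.b x * d1 (chi σ) x + P.b x * d1 (d1 (chi σ)) x)| ≤ 3 * N := by
      have := abs_sub (d1 (d2 (chi σ)) x) (d1 P.b x * d1 (chi σ) x + P.b x * d1 (d1 (chi σ)) x)
      have := abs_add_le (d1 P.b x * d1 (chi σ) x) (P.b x * d1 (d1 (chi σ)) x)
      linarith
    have p3 := amul b01 i1
    have := abs_add_le (d2 P.b x * d1 (chi σ) x) (P.b x * d1 (d2 (chi σ)) x)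
    rw [abs_le] at *
    constructor <;> linarith
  have A1 : |2 * (P.b x * P.b x) * d1 (chi σ) x - 2 * P.b x * d2 (chi σ) x
        - 2 * P.a x * d1 (chi σ) x| ≤ 6 * (K * N) := by
    have p1 := amul (amul b01 b01) n1
    have p2 := amul b01 n2
    have p3 := amul ka n1
    rw [abs_le] at *
    constructor <;> linarith
  have A2 : |2 * d2 (chi σ) x - 2 * P.b x * d1 (chi σ) x| ≤ 4 * (K * N) := by
    have p1 := amul b01 n1
    rw [abs_le] at *
    constructor <;> linarith
  have hcomm : |comm σ P w x| ≤ 30 * K * N * δ := by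
    unfold comm
    have q0 := amul A0 hw0
    have q1 := amul A1 hw1
    have q2 := amul A2 hw2
    have hh : 0 ≤ K * N * δ := by positivity
    rw [abs_le] at *
    constructor <;> linarith
  have hx3 : x ∈ Dsk (3/2) := by
    simp only [Dsk, Set.mem_ofPred_eq] at hx ⊢; linarith
  have hr : x.1 ^ 2 + x.2 ^ 2 ≤ 3/2 := hx3
  have hy : |x.2| ≤ 3/2 :=
    abs_le_of_sq_le_sq (by linarith [sq_nonneg x.1]) (by norm_num)
  have hx1 : |x.1| ≤ 3/2 :=
    abs_le_of_sq_le_sq (by linarith [sq_nonneg x.2]) (by norm_num)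
  have hs1 : |d1 s x| ≤ 2 := by
    have := hl.s1 x hx3
    have := abs_add_le (d1 s x - 1) 1
    rw [sub_add_cancel, abs_one] at this; linarith
  have hs : |s x| ≤ 2 := by
    have h0 := hl.s0 x hx3
    have := abs_add_le (s x - x.1) x.1
    rw [sub_add_cancel] at this
    have h4 : 4 * τ * |x.2| ≤ 4 * (1/1000) * |x.2| :=
      mul_le_mul_of_nonneg_right (by linarith) (abs_nonneg _)
    linarith
  have v1 : |d1 (fun y => chi σ y * w y) x| ≤ 2 * N * δ := by
    rw [e1]
    have := abs_add_le (d1 (chi σ) x * w x) (chi σ x * d1 w x)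
    linarith [amul n1 hw0, amul n0 hw1]
  have v2 : |d2 (fun y => chi σ y * w y) x| ≤ 2 * N * δ := by
    rw [e2]
    have := abs_add_le (d2 (chi σ) x * w x) (chi σ x * d2 w x)
    linarith [amul n2 hw0, amul n0 hw2]
  have vV : |P.V (fun y => chi σ y * w y) x| ≤ 4 * N * δ := by
    unfold Coef.V
    have := abs_sub (d2 (fun y => chi σ y * w y) x) (P.b x * d1 (fun y => chi σ y * w y) x)
    linarith [amul b01 v1]
  obtain ⟨W0, W1⟩ := wgt_bounds (e := e) hθ hθ1 (s x)
  have hm : |mlt θ e P s (fun y => chi σ y * w y) x| ≤ 16 * N * δ := by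
    unfold mlt
    have := abs_add_le (s x * d1 (fun y => chi σ y * w y) x)
      (x.2 / 2 * d1 s x * P.V (fun y => chi σ y * w y) x)
    have hy2 : |x.2 / 2| ≤ 3/4 := by rw [abs_div, abs_two]; linarith
    have h := amul (show |wgt θ e (s x)| ≤ 1 by rw [abs_of_nonneg (by linarith)]; exact W1)
      (show |s x * d1 (fun y => chi σ y * w y) x
        + x.2 / 2 * d1 s x * P.V (fun y => chi σ y * w y) x| ≤ 16 * N * δ by
        linarith [amul hs v1, amul (amul hy2 hs1) vV, mul_nonneg N0 δ0])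
    linarith
  have := amul hcomm hm
  linarith

theorem en_continuous (e : ℝ) {P : Coef} {w : P2 → ℝ} (hb : ContDiff ℝ 3 P.b)
    (hw : ContDiff ℝ 3 w) : Continuous (en e P w) :=
  ((cV_smooth hb hw).continuous.pow 2).add
    (continuous_const.mul ((cd1_smooth (m := 1) hw (by norm_num)).continuous.pow 2))

theorem en_nonneg {e : ℝ} (he : 0 ≤ e) (P : Coef) (w : P2 → ℝ) (x : P2) : 0 ≤ en e P w x :=
  add_nonneg (sq_nonneg _) (mul_nonneg he (sq_nonneg _))

/-- Pointwise data for the quadratic form. -/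
theorem good_pt {P : Coef} {s : P2 → ℝ} {e τ K σ : ℝ} (g : P.Good e τ K σ) (hl : LabelOK P τ s)
    (t0 : 0 < τ) {x : P2} (hx : rsq x ≤ 11/10) :
    Pt e τ x.1 x.2 (s x) (d1 s x) (d1 (d1 s) x) (P.a x) (d1 P.a x) (d2 P.a x) (P.b x) (d1 P.b x)
      (P.β x + d1 P.a x) (P.c x) := by
  have h3 : x ∈ Dsk (3/2) := by simp only [Dsk, Set.mem_ofPred_eq]; linarith
  have hr : x.1 ^ 2 + x.2 ^ 2 ≤ 11/10 := hx
  have hy : |x.2| ≤ 21/20 := abs_le_of_sq_le_sq (by linarith [sq_nonneg x.1]) (by norm_num)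
  exact
    { hx := abs_le_of_sq_le_sq (by linarith [sq_nonneg x.2]) (by norm_num)
      hy := hy
      hs := le_trans (hl.s0 x h3) (by linarith [mul_le_mul_of_nonneg_left hy t0.le])
      hs1 := hl.s1 x h3
      hs11 := hl.s11 x h3
      ha := g.a0 x h3
      ha1 := g.a1 x h3
      ha2 := g.a2 x h3
      hb := g.b0 x
      hb1 := g.b1 x
      hβ := g.β0 x h3
      hc := g.c0 x h3 }

/-- The weighted estimate before slicing. -/
theorem mult_estimate {K : ℝ} (hK : 1 ≤ K) {θ : ℝ} (hθ : 0 < θ) (hθ1 : θ ≤ 1) :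
    ∃ σ D : ℝ, 0 < σ ∧ σ ≤ 1/10 ∧ 0 ≤ D ∧
      ∀ (e τ T δ : ℝ) (P : Coef) (s f w : P2 → ℝ),
        0 < e → e ≤ 1 → 0 < τ → τ ≤ 1/1000 → 0 ≤ T → τ * (T + 1) ≤ 1/100 →
        P.Good e τ K σ → LabelOK P τ s → Continuous f →
        (∀ x, f x ≠ 0 → |x.1| ≤ Real.sqrt e / 20 ∧ |x.2| ≤ (T + 1) * Real.sqrt e / 20 ∧
          rsq x ≤ 1/2) →
        ContDiff ℝ 3 w → (∀ x ∈ Dsk (3/2), P.op w x = f x) →
        (∀ x ∈ Ann (1 + σ / 2) (1 + σ), |w x| ≤ δ ∧ |d1 w x| ≤ δ ∧ |d2 w x| ≤ δ) →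
        (∫ x in Dsk (1 + σ / 2), wgt θ e (s x) * en e P w x)
          ≤ 32 * θ * (∫ x, |f x| * Real.sqrt (en e P w x)) + D * δ ^ 2 := by
  obtain ⟨B, hB0, hB⟩ := st_deriv_bound
  set σ := min (1/10) (θ / (100 * (10 * B + 1))) with hσd
  have σ0 : 0 < σ := lt_min (by norm_num) (by positivity)
  have σ1 : σ ≤ 1/10 := min_le_left _ _
  have hBσ : 10 * B * σ ≤ θ / 100 := by
    calc 10 * B * σ ≤ (10 * B + 1) * (θ / (100 * (10 * B + 1))) :=
          mul_le_mul (by linarith) (min_le_right _ _) σ0.le (by positivity)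
      _ = θ / 100 := by field_simp
  obtain ⟨M, hM0, hM⟩ := comm_bound σ σ1 hK
  refine ⟨σ, 16 * M * volume.real (Dsk (1 + σ)), σ0, σ1, by positivity, ?_⟩
  intro e τ T δ P s f w e0 e1 t0 t1 T0 tT g hl hf hsupp hw heq hdata
  set v := fun y => chi σ y * w y with hv
  have hvs : ContDiff ℝ 3 v := chi_mul_smooth σ hw
  have hts := chi_mul_tsupport σ0 w
  have out : ∀ x, x ∉ Dsk (1 + σ) → d1 v x = 0 ∧ P.V v x = 0 := fun x hx =>
    zero_outside fun h => hx (hts h)
  obtain ⟨J1s, J2s⟩ := mJ_smooth θ e g.hb g.ha hl.smooth hvs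
  have hJc : HasCompactSupport (mJ1 θ e P s v) ∧ HasCompactSupport (mJ2 θ e P s v) := by
    constructor <;>
      refine HasCompactSupport.intro (isCompact_Dsk (1 + σ)) (fun x hx => ?_) <;>
      obtain ⟨z1, z2⟩ := out x hx <;> simp [mJ1, mJ2, z1, z2]
  have hdiv := integral_div_eq_zero J1s J2s hJc.1 hJc.2
  have hopc : Continuous (fun x => P.op v x * mlt θ e P s v x) := by
    have hu := cV_smooth g.hb hvs
    have c1 : Continuous (P.V (P.V v)) := by
      have a := (cd2_smooth (m := 1) hu (by norm_num)).continuous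
      have b := (cd1_smooth (m := 1) hu (by norm_num)).continuous
      exact a.sub (g.hb.continuous.mul b)
    have c2 : Continuous (d1 (d1 v)) :=
      (cd1_smooth (m := 0) (cd1_smooth (m := 1) hvs (by norm_num)) (by simp)).continuous
    have c3 := (cd1_smooth (m := 1) hvs (by norm_num)).continuous
    have c4 := (cd2_smooth (m := 1) hvs (by norm_num)).continuous
    have hm : Continuous (mlt θ e P s v) := by
      unfold mlt
      exact ((wgt_smooth θ e).continuous.comp hl.smooth.continuous).mul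
        ((hl.smooth.continuous.mul c3).add (((continuous_snd.div_const 2).mul
          (cd1_smooth (m := 1) hl.smooth (by norm_num)).continuous).mul hu.continuous))
    refine Continuous.mul ?_ hm
    unfold Coef.op
    exact (((c1.sub (g.ha.continuous.mul c2)).add (g.hβ.continuous.mul c3)).add
      (g.hc.continuous.mul c4))
  have hop0 : ∀ x, x ∉ Dsk (1 + σ) → P.op v x * mlt θ e P s v x = 0 := by
    intro x hx; obtain ⟨z1, z2⟩ := out x hx; simp [mlt, z1, z2]
  have iop : Integrable (fun x => P.op v x * mlt θ e P s v x) :=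
    hopc.integrable_of_hasCompactSupport (HasCompactSupport.intro (isCompact_Dsk _) hop0)
  have idiv : Integrable (fun x => d1 (mJ1 θ e P s v) x + d2 (mJ2 θ e P s v) x) :=
    ((cd1_smooth (m := 0) J1s (by simp)).continuous.integrable_of_hasCompactSupport
      (hJc.1.fderiv_apply ℝ _)).add
    ((cd2_smooth (m := 0) J2s (by simp)).continuous.integrable_of_hasCompactSupport
      (hJc.2.fderiv_apply ℝ _))
  have hQ : ∀ x, mQ θ e P s v x
      = P.op v x * mlt θ e P s v x - (d1 (mJ1 θ e P s v) x + d2 (mJ2 θ e P s v) x) := by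
    intro x; rw [mult_identity θ e g.hb g.ha hl.smooth hl.transport hvs x]; ring
  have iQ : Integrable (mQ θ e P s v) := by
    rw [show mQ θ e P s v = fun x => P.op v x * mlt θ e P s v x
      - (d1 (mJ1 θ e P s v) x + d2 (mJ2 θ e P s v) x) from funext hQ]
    exact iop.sub idiv
  have hint : ∫ x, mQ θ e P s v x = ∫ x, P.op v x * mlt θ e P s v x := by
    simp only [hQ]; rw [integral_sub iop idiv, hdiv, sub_zero]
  -- lower bound
  have hlow : ∀ x, wgt θ e (s x) / 16 * en e P v x ≤ mQ θ e P s v x := by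
    intro x
    by_cases hx : x ∈ Dsk (1 + σ)
    · have hx' : rsq x ≤ 11/10 := by
        simp only [Dsk, Set.mem_ofPred_eq] at hx; linarith
      obtain ⟨k0, k1, k2⟩ := wk_props e0 hθ.le hθ1 hB (s x)
      exact q_lower (good_pt g hl t0 hx') (P.V v x) (d1 v x) e0 e1 t0 t1 hx' σ0.le σ1
        (g.sea x hx) hθ (wgt_bounds hθ.le hθ1 (s x)).1 k0 k1 hBσ k2
    · obtain ⟨z1, z2⟩ := out x hx
      simp [en, mQ, Qf, z1, z2]
  -- upper bound
  have hup : ∀ x, P.op v x * mlt θ e P s v x ≤ 2 * θ * (|f x| * Real.sqrt (en e P w x))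
      + (Dsk (1 + σ)).indicator (fun _ => M * δ ^ 2) x := by
    intro x
    have hA : 0 ≤ 2 * θ * (|f x| * Real.sqrt (en e P w x)) := by positivity
    by_cases hx : x ∈ Dsk (1 + σ)
    · rw [Set.indicator_of_mem hx]
      have hx3 : x ∈ Dsk (3/2) := by simp only [Dsk, Set.mem_ofPred_eq] at hx ⊢; linarith
      rw [op_chi_mul σ g.hb hw, heq x hx3, add_mul]
      by_cases hin : rsq x < 1 + σ / 2
      · rw [comm_low σ0 hin, zero_mul, add_zero, chi_one σ0 hin.le, one_mul]
        obtain ⟨m1, m2⟩ := chi_mul_low (P := P) σ0 hw hin.le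
        have hMd : 0 ≤ M * δ ^ 2 := by positivity
        by_cases hfx : f x = 0
        · rw [hfx]; simp; positivity
        obtain ⟨f1, f2, f3⟩ := hsupp x hfx
        set q := Real.sqrt e with hq
        have q0 : 0 ≤ q := Real.sqrt_nonneg _
        have q1 : q ≤ 1 := by rw [hq, Real.sqrt_le_one]; exact e1
        have hsx : |s x| ≤ q / 10 := by
          have := abs_add_le (s x - x.1) x.1
          rw [sub_add_cancel] at this
          have hh := mul_le_mul_of_nonneg_left f2 (show 0 ≤ 4 * τ by linarith)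
          have hh2 := mul_le_mul_of_nonneg_right tT q0
          linarith [hl.s0 x hx3]
        have hW : wgt θ e (s x) = θ := wgt_low e0 (by
          have := pow_le_pow_left₀ (abs_nonneg _) hsx 2
          rw [sq_abs, div_pow, Real.sq_sqrt e0.le] at this
          linarith)
        have hy : |x.2| ≤ 1 := by
          have hr : x.1 ^ 2 + x.2 ^ 2 ≤ 1/2 := f3
          exact abs_le_of_sq_le_sq (by linarith [sq_nonneg x.1]) (by norm_num)
        have hs1 : |d1 s x| ≤ 11/10 := by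
          have := abs_add_le (d1 s x - 1) 1
          rw [sub_add_cancel, abs_one] at this
          linarith [hl.s1 x hx3]
        set en0 := Real.sqrt (en e P w x) with hen0
        have hu : |P.V w x| ≤ en0 := Real.abs_le_sqrt (by
          unfold en; linarith [mul_nonneg e0.le (sq_nonneg (d1 w x))])
        have hp : q * |d1 w x| ≤ en0 := by
          rw [← abs_of_nonneg q0, ← abs_mul]
          refine Real.abs_le_sqrt ?_
          rw [mul_pow, Real.sq_sqrt e0.le]; unfold en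
          linarith [sq_nonneg (P.V w x)]
        have hm : |mlt θ e P s v x| ≤ 2 * θ * en0 := by
          unfold mlt
          rw [m1, m2, hW, abs_mul, abs_of_pos hθ]
          have := abs_add_le (s x * d1 w x) (x.2 / 2 * d1 s x * P.V w x)
          have hy2 : |x.2 / 2| ≤ 1/2 := by rw [abs_div, abs_two]; linarith
          have h1 := amul hsx (le_refl |d1 w x|)
          have h2 := amul (amul hy2 hs1) hu
          have h3 : |s x * d1 w x + x.2 / 2 * d1 s x * P.V w x| ≤ 2 * en0 := by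
            linarith [Real.sqrt_nonneg (en e P w x)]
          linarith [mul_le_mul_of_nonneg_left h3 hθ.le]
        have := amul (le_refl |f x|) hm
        linarith [le_abs_self (f x * mlt θ e P s v x)]
      · push Not at hin
        have hfx : f x = 0 := by
          by_contra hne
          linarith [(hsupp x hne).2.2]
        obtain ⟨d0, d1', d2'⟩ := hdata x ⟨hin, hx⟩
        have := hM θ e τ δ P s w hθ.le hθ1 t1 g hl hw x hx d0 d1' d2'
        rw [hfx]; simp only [mul_zero, zero_mul, zero_add, abs_zero]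
        linarith [le_abs_self (comm σ P w x * mlt θ e P s v x)]
    · rw [Set.indicator_of_notMem hx, hop0 x hx, add_zero]
      exact hA
  have hfc : HasCompactSupport f := HasCompactSupport.intro (isCompact_Dsk 1) fun x hx => by
    by_contra hne
    exact hx (by simp only [Dsk, Set.mem_ofPred_eq]; linarith [(hsupp x hne).2.2])
  have iA : Integrable (fun x => |f x| * Real.sqrt (en e P w x)) :=
    (hf.abs.mul (en_continuous e g.hb hw).sqrt).integrable_of_hasCompactSupport
      ((hfc.comp_left (g := fun t : ℝ => |t|) abs_zero).mul_right)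
  have hmeas : MeasurableSet (Dsk (1 + σ)) := (isCompact_Dsk _).measurableSet
  have iI : Integrable ((Dsk (1 + σ)).indicator (fun _ => M * δ ^ 2) : P2 → ℝ) :=
    (integrable_indicator_iff hmeas).mpr
      (integrableOn_const (isCompact_Dsk _).measure_ne_top)
  have hWc : Continuous (fun x => wgt θ e (s x) / 16 * en e P v x) :=
    (((wgt_smooth θ e).continuous.comp hl.smooth.continuous).div_const 16).mul
      (en_continuous e g.hb hvs)
  have iW : Integrable (fun x => wgt θ e (s x) / 16 * en e P v x) :=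
    hWc.integrable_of_hasCompactSupport (HasCompactSupport.intro (isCompact_Dsk (1 + σ))
      fun x hx => by obtain ⟨z1, z2⟩ := out x hx; simp [en, z1, z2])
  have step1 : ∫ x in Dsk (1 + σ / 2), wgt θ e (s x) / 16 * en e P w x
      ≤ ∫ x, wgt θ e (s x) / 16 * en e P v x := by
    rw [setIntegral_congr_fun (g := fun x => wgt θ e (s x) / 16 * en e P v x)
      (isCompact_Dsk _).measurableSet (fun x hx => by
        obtain ⟨m1, m2⟩ := chi_mul_low (P := P) σ0 hw hx
        simp only [en, v, m1, m2])]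
    exact setIntegral_le_integral iW (Filter.Eventually.of_forall fun x =>
      mul_nonneg (div_nonneg (le_trans hθ.le (wgt_bounds hθ.le hθ1 _).1) (by norm_num))
        (en_nonneg e0.le P v x))
  have step2 := integral_mono iW iQ hlow
  have step3 := integral_mono (g := fun x => 2 * θ * (|f x| * Real.sqrt (en e P w x))
      + (Dsk (1 + σ)).indicator (fun _ => M * δ ^ 2) x) iop ((iA.const_mul _).add iI) hup
  rw [integral_add (iA.const_mul _) iI, integral_const_mul, integral_indicator hmeas,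
    setIntegral_const, smul_eq_mul] at step3
  have e16 : ∫ x in Dsk (1 + σ / 2), wgt θ e (s x) / 16 * en e P w x
      = (∫ x in Dsk (1 + σ / 2), wgt θ e (s x) * en e P w x) / 16 := by
    rw [← integral_div]; congr 1; funext x; ring
  linarith [hint]

end Vale.Agent.P229
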