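import Mathlib

/-!
# P229: differentiation under an integral over a compact interval
-/

namespace Vale.Agent.P229

open MeasureTheory Set Filter Topology

set_option linter.unusedSectionVars false

variable {E G : Type} [NormedAddCommGroup E] [NormedSpace ℝ E] [FiniteDimensional ℝ E]
  [NormedAddCommGroup G] [NormedSpace ℝ G] [CompleteSpace G]

/-- Differentiation under the integral sign, continuous data. -/
theorem hasFDerivAt_param {F : E → ℝ → G} {F' : E → ℝ → E →L[ℝ] G}
    (hF : Continuous fun z : E × ℝ => F z.1 z.2) (hF' : Continuous fun z : E × ℝ => F' z.1 z.2)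
    (hd : ∀ x t, HasFDerivAt (fun y => F y t) (F' x t) x) (a b : ℝ) (x₀ : E) :
    HasFDerivAt (fun x => ∫ t in a..b, F x t) (∫ t in a..b, F' x₀ t) x₀ := by
  have := FiniteDimensional.proper ℝ E
  obtain ⟨C, hC⟩ := ((isCompact_closedBall x₀ 1).prod isCompact_uIcc (s := Metric.closedBall x₀ 1)
    (t := uIcc a b)).exists_bound_of_continuousOn hF'.continuousOn
  exact intervalIntegral.hasFDerivAt_integral_of_dominated_of_fderiv_le
    (F := F) (F' := F') (bound := fun _ => C) (Metric.closedBall_mem_nhds x₀ one_pos)
    (Eventually.of_forall fun x => (hF.comp (Continuous.prodMk_right x)).aestronglyMeasurable)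
    ((hF.comp (Continuous.prodMk_right x₀)).intervalIntegrable a b)
    ((hF'.comp (Continuous.prodMk_right x₀)).aestronglyMeasurable)
    (ae_of_all _ fun t ht x hx => hC (x, t) ⟨hx, uIoc_subset_uIcc ht⟩)
    intervalIntegrable_const
    (ae_of_all _ fun t _ x _ => hd x t)

/-- The derivative in the first variable of a function of two variables. -/
theorem hasFDerivAt_fst_slot {F : E → ℝ → G}
    (hF : Differentiable ℝ fun z : E × ℝ => F z.1 z.2) (x : E) (t : ℝ) :
    HasFDerivAt (fun y => F y t)
      ((fderiv ℝ (fun z : E × ℝ => F z.1 z.2) (x, t)).comp (ContinuousLinearMap.inl ℝ E ℝ)) x := by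
  have h1 : HasFDerivAt (fun y : E => (y, t)) (ContinuousLinearMap.inl ℝ E ℝ) x :=
    (hasFDerivAt_id x).prodMk (hasFDerivAt_const t x)
  exact (hF (x, t)).hasFDerivAt.comp x h1

/-- Parametric integrals of `C^n` integrands are `C^n`. -/
theorem contDiff_param (n : ℕ) :
    ∀ {G : Type} [NormedAddCommGroup G] [NormedSpace ℝ G] [CompleteSpace G] {F : E → ℝ → G},
      ContDiff ℝ n (fun z : E × ℝ => F z.1 z.2) → ∀ a b : ℝ,
      ContDiff ℝ n fun x => ∫ t in a..b, F x t := by
  induction n with
  | zero =>
    intro G _ _ _ F hF a b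
    exact contDiff_zero.2
      (intervalIntegral.continuous_parametric_intervalIntegral_of_continuous'
        (f := F) (contDiff_zero.1 hF) a b)
  | succ n ih =>
    intro G _ _ _ F hF a b
    set F' : E → ℝ → E →L[ℝ] G := fun x t =>
      (fderiv ℝ (fun z : E × ℝ => F z.1 z.2) (x, t)).comp (ContinuousLinearMap.inl ℝ E ℝ) with hF'
    have hd : Differentiable ℝ fun z : E × ℝ => F z.1 z.2 := hF.differentiable (by simp)
    have hF'c : ContDiff ℝ n fun z : E × ℝ => F' z.1 z.2 :=
      (hF.fderiv_right (m := n) (by norm_cast)).clm_comp contDiff_const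
    have hder := fun x₀ : E => hasFDerivAt_param (F := F) (F' := F') hF.continuous hF'c.continuous
      (hasFDerivAt_fst_slot hd) a b x₀
    rw [show ((n + 1 : ℕ) : WithTop ℕ∞) = (n : WithTop ℕ∞) + 1 by norm_cast,
      contDiff_succ_iff_fderiv]
    refine ⟨fun x => (hder x).differentiableAt, by simp, ?_⟩
    rw [funext fun x => (hder x).fderiv]
    exact ih hF'c a b

/-- A function with an exact linear representation continuous at a point is differentiable there. -/
theorem hasFDerivAt_of_repr {f : E → G} {l : E → E →L[ℝ] G} {x₀ : E}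
    (hl : ContinuousAt l x₀) (h : ∀ x, f x - f x₀ = l x (x - x₀)) :
    HasFDerivAt f (l x₀) x₀ := by
  rw [hasFDerivAt_iff_isLittleO, Asymptotics.isLittleO_iff]
  intro c hc
  filter_upwards [hl.eventually (Metric.closedBall_mem_nhds (l x₀) hc)] with x hx
  rw [h x, ← sub_apply]
  refine (ContinuousLinearMap.le_opNorm _ _).trans ?_
  gcongr
  simpa [dist_eq_norm] using hx

end Vale.Agent.P229
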