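import Vale.Agent.P229.Defs
import Vale.Agent.P229.Param

/-!
# P229: characteristics of `d2 - v d1`

`flow v p` is the solution of `X' = -v (X, t)` through `p`; it is as smooth as `v`.
-/

namespace Vale.Agent.P229

open MeasureTheory Set Filter Topology

/-- `X` is a characteristic of `d2 - v d1`. -/
def IsChr (v : P2 → ℝ) (X : ℝ → ℝ) : Prop := ∀ t, HasDerivAt X (-v (X t, t)) t

/-- The characteristic through `p`. -/
noncomputable def flow (v : P2 → ℝ) (p : P2) : ℝ → ℝ :=
  Classical.epsilon fun X => X p.2 = p.1 ∧ IsChr v X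

/-- Mean of `g` along the characteristic through `z.1`, between the heights `z.1.2` and `z.2`. -/
noncomputable def meanAlong (v g : P2 → ℝ) (z : P2 × ℝ) : ℝ :=
  ∫ θ in (0 : ℝ)..1,
    g (flow v z.1 (z.1.2 + θ * (z.2 - z.1.2)), z.1.2 + θ * (z.2 - z.1.2))

/-- Derivative of the characteristic in its starting abscissa. -/
noncomputable def jac (v : P2 → ℝ) (z : P2 × ℝ) : ℝ :=
  Real.exp (-((z.2 - z.1.2) * meanAlong v (d1 v) z))

theorem jac_pos (v : P2 → ℝ) (z : P2 × ℝ) : 0 < jac v z := Real.exp_pos _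

theorem continuous_pd {f : P2 → ℝ} (hf : ContDiff ℝ 1 f) (u : P2) :
    Continuous fun x => fderiv ℝ f x u :=
  (hf.continuous_fderiv one_ne_zero).clm_apply continuous_const

theorem hasDerivAt_slice1 {f : P2 → ℝ} (hf : Differentiable ℝ f) (x t : ℝ) :
    HasDerivAt (fun y => f (y, t)) (d1 f (x, t)) x := by
  have h1 : HasDerivAt (fun y : ℝ => ((y, t) : P2)) (1, 0) x :=
    (hasDerivAt_id x).prodMk (hasDerivAt_const x t)
  exact (hf (x, t)).hasFDerivAt.comp_hasDerivAt x h1

variable {v : P2 → ℝ} {B L : ℝ}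

theorem rhs_lipschitz (hv : ContDiff ℝ 1 v) (hL : ∀ x, |d1 v x| ≤ L) (t : ℝ) :
    LipschitzWith L.toNNReal fun x => -v (x, t) := by
  have hd := fun x => (hasDerivAt_slice1 (hv.differentiable one_ne_zero) x t).neg
  refine lipschitzWith_of_nnnorm_deriv_le (fun x => (hd x).differentiableAt) fun x => ?_
  rw [show deriv (fun x => -v (x, t)) x = -d1 v (x, t) from (hd x).deriv, ← NNReal.coe_le_coe, coe_nnnorm, norm_neg, Real.norm_eq_abs,
    Real.coe_toNNReal _ ((abs_nonneg _).trans (hL (x, t)))]
  exact hL _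

theorem chr_unique (hv : ContDiff ℝ 1 v) (hL : ∀ x, |d1 v x| ≤ L) {X Y : ℝ → ℝ}
    (hX : IsChr v X) (hY : IsChr v Y) {t₀ : ℝ} (h : X t₀ = Y t₀) : X = Y :=
  ODE_solution_unique_univ (v := fun t x => -v (x, t)) (K := L.toNNReal) (s := fun _ => univ)
    (fun t => (rhs_lipschitz hv hL t).lipschitzOnWith)
    (fun t => ⟨hX t, trivial⟩) (fun t => ⟨hY t, trivial⟩) h

theorem exists_chr (hv : ContDiff ℝ 1 v) (hB : ∀ x, |v x| ≤ B) (hL : ∀ x, |d1 v x| ≤ L)
    (p : P2) : ∃ X, X p.2 = p.1 ∧ IsChr v X := by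
  have hB0 : 0 ≤ B := (abs_nonneg _).trans (hB 0)
  have loc : ∀ T : ℝ, 0 < T → ∃ X : ℝ → ℝ, X p.2 = p.1 ∧
      ∀ t ∈ Ioo (p.2 - T) (p.2 + T), HasDerivAt X (-v (X t, t)) t := by
    intro T hT
    have hmem : p.2 ∈ Icc (p.2 - T) (p.2 + T) := ⟨by linarith, by linarith⟩
    have hP : IsPicardLindelof (fun t x => -v (x, t)) ⟨p.2, hmem⟩ p.1 (B * T).toNNReal 0
        B.toNNReal L.toNNReal := by
      refine ⟨fun t _ => (rhs_lipschitz hv hL t).lipschitzOnWith,
        fun x _ => (hv.continuous.comp (Continuous.prodMk_right x)).neg.continuousOn,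
        fun t _ x _ => ?_, ?_⟩
      · rw [norm_neg, Real.norm_eq_abs, Real.coe_toNNReal _ hB0]
        exact hB _
      · simp [Real.coe_toNNReal _ hB0, Real.coe_toNNReal _ (mul_nonneg hB0 hT.le)]
    obtain ⟨α, h0, hα⟩ := hP.exists_eq_forall_mem_Icc_hasDerivWithinAt₀
    exact ⟨α, h0, fun t ht => (hα t (Ioo_subset_Icc_self ht)).hasDerivAt
      (Icc_mem_nhds ht.1 ht.2)⟩
  choose! F hF0 hF using loc
  have agree : ∀ S T : ℝ, 0 < S → S ≤ T → EqOn (F S) (F T) (Ioo (p.2 - S) (p.2 + S)) := by
    intro S T hS hST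
    refine ODE_solution_unique_of_mem_Ioo (v := fun t x => -v (x, t)) (K := L.toNNReal)
      (s := fun _ => univ) (t₀ := p.2)
      (fun t _ => (rhs_lipschitz hv hL t).lipschitzOnWith) ⟨by linarith, by linarith⟩
      (fun t ht => ⟨hF S hS t ht, trivial⟩) (fun t ht => ⟨hF T (hS.trans_le hST) t
        ⟨by linarith [ht.1], by linarith [ht.2]⟩, trivial⟩) ?_
    rw [hF0 S hS, hF0 T (hS.trans_le hST)]
  refine ⟨fun t => F (|t - p.2| + 1) t, ?_, fun t => ?_⟩
  · exact hF0 _ (by positivity)
  · have hT : 0 < |t - p.2| + 2 := by positivity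
    have key : ∀ s ∈ Ioo (t - 1) (t + 1), F (|s - p.2| + 1) s = F (|t - p.2| + 2) s := by
      intro s hs
      have h1 : |s - p.2| ≤ |t - p.2| + 1 := by
        rw [abs_le]; constructor <;> linarith [hs.1, hs.2, le_abs_self (t - p.2), neg_abs_le (t - p.2)]
      exact agree (|s - p.2| + 1) (|t - p.2| + 2) (by positivity) (by linarith)
        ⟨by linarith [neg_abs_le (s - p.2)], by linarith [le_abs_self (s - p.2)]⟩
    have hmem : Ioo (t - 1) (t + 1) ∈ 𝓝 t := Ioo_mem_nhds (by linarith) (by linarith)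
    have := hF _ hT t ⟨by linarith [neg_abs_le (t - p.2)], by linarith [le_abs_self (t - p.2)]⟩
    have e : (fun s => F (|s - p.2| + 1) s) =ᶠ[𝓝 t] F (|t - p.2| + 2) :=
      eventually_of_mem hmem key
    show HasDerivAt _ (-v (F (|t - p.2| + 1) t, t)) t
    rw [key t ⟨by linarith, by linarith⟩]
    exact this.congr_of_eventuallyEq e

/-- Global hypotheses on a characteristic speed. -/
structure Speed (v : P2 → ℝ) (B L : ℝ) : Prop where
  smooth : ContDiff ℝ 1 v
  bound : ∀ x, |v x| ≤ B
  lip : ∀ x, |d1 v x| ≤ L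

theorem Speed.B_nonneg (h : Speed v B L) : 0 ≤ B := (abs_nonneg _).trans (h.bound 0)

theorem Speed.L_nonneg (h : Speed v B L) : 0 ≤ L := (abs_nonneg _).trans (h.lip 0)

theorem Speed.flow_spec (h : Speed v B L) (p : P2) : flow v p p.2 = p.1 ∧ IsChr v (flow v p) :=
  Classical.epsilon_spec (exists_chr h.smooth h.bound h.lip p)

theorem Speed.flow_zero (h : Speed v B L) (p : P2) : flow v p p.2 = p.1 := (h.flow_spec p).1

theorem Speed.flow_hasDeriv (h : Speed v B L) (p : P2) (t : ℝ) :
    HasDerivAt (flow v p) (-v (flow v p t, t)) t := (h.flow_spec p).2 t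

theorem Speed.flow_cont (h : Speed v B L) (p : P2) : Continuous (flow v p) :=
  continuous_iff_continuousAt.2 fun t => (h.flow_hasDeriv p t).continuousAt

/-- The characteristic through a point of a characteristic is the same. -/
theorem Speed.flow_flow (h : Speed v B L) (p : P2) (s : ℝ) : flow v (flow v p s, s) = flow v p :=
  chr_unique h.smooth h.lip (h.flow_spec _).2 (h.flow_spec p).2 (h.flow_zero (flow v p s, s))

/-- Fundamental theorem of calculus along a characteristic. -/
theorem Speed.flow_increment (h : Speed v B L) (p : P2) (a b : ℝ) :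
    flow v p b - flow v p a =
      -((b - a) * ∫ θ in (0 : ℝ)..1, v (flow v p (a + θ * (b - a)), a + θ * (b - a))) := by
  have hc : Continuous fun t => -v (flow v p t, t) :=
    (h.smooth.continuous.comp ((h.flow_cont p).prodMk continuous_id)).neg
  have e := intervalIntegral.smul_integral_comp_mul_add (f := fun t => -v (flow v p t, t))
    (a := (0:ℝ)) (b := 1) (b - a) a
  rw [smul_eq_mul] at e
  rw [intervalIntegral.integral_eq_sub_of_hasDerivAt (fun t _ => h.flow_hasDeriv p t)
    (hc.intervalIntegrable _ _)] at e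
  simp only [mul_zero, zero_add, mul_one, sub_add_cancel, intervalIntegral.integral_neg,
    mul_neg] at e
  rw [← e]
  simp only [mul_comm _ (b - a), add_comm a]

/-- Slope of `v (·, t)` between the characteristics through `p` and `q`. -/
noncomputable def slopeAlong (v : P2 → ℝ) (p q : P2) (t : ℝ) : ℝ :=
  ∫ θ in (0 : ℝ)..1, d1 v (flow v p t + θ * (flow v q t - flow v p t), t)

theorem Speed.abs_slopeAlong (h : Speed v B L) (p q : P2) (t : ℝ) :
    |slopeAlong v p q t| ≤ L := by
  have := intervalIntegral.norm_integral_le_of_norm_le_const (a := (0:ℝ)) (b := 1) (C := L)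
    (f := fun θ => d1 v (flow v p t + θ * (flow v q t - flow v p t), t))
    fun θ _ => h.lip _
  simpa [slopeAlong] using this

theorem Speed.slope_cont (h : Speed v B L) (p q : P2) : Continuous (slopeAlong v p q) :=
  intervalIntegral.continuous_parametric_intervalIntegral_of_continuous'
    (f := fun t θ => d1 v (flow v p t + θ * (flow v q t - flow v p t), t))
    ((continuous_pd h.smooth (1, 0)).comp
      (((((h.flow_cont p).comp continuous_fst).add
        (continuous_snd.mul (((h.flow_cont q).comp continuous_fst).sub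
          ((h.flow_cont p).comp continuous_fst))))).prodMk continuous_fst)) 0 1

/-- Exact formula for the difference of two characteristics. -/
theorem Speed.flow_diff (h : Speed v B L) (p q : P2) (a t : ℝ) :
    flow v q t - flow v p t =
      (flow v q a - flow v p a) * Real.exp (-∫ s in a..t, slopeAlong v p q s) := by
  set X := flow v p
  set Y := flow v q
  set k := slopeAlong v p q
  have hk : ∀ s, v (Y s, s) - v (X s, s) = (Y s - X s) * k s := by
    intro s
    have hd : ∀ θ : ℝ, HasDerivAt (fun θ => v (X s + θ * (Y s - X s), s))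
        (d1 v (X s + θ * (Y s - X s), s) * (Y s - X s)) θ := fun θ =>
      (hasDerivAt_slice1 (h.smooth.differentiable one_ne_zero) _ s).comp θ
        (by simpa using ((hasDerivAt_id θ).mul_const (Y s - X s)).const_add (X s))
    have hc : Continuous fun θ : ℝ => d1 v (X s + θ * (Y s - X s), s) * (Y s - X s) :=
      ((continuous_pd h.smooth (1, 0)).comp ((continuous_const.add
        (continuous_id.mul continuous_const)).prodMk continuous_const)).mul continuous_const
    have := intervalIntegral.integral_eq_sub_of_hasDerivAt (fun θ _ => hd θ)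
      (hc.intervalIntegrable 0 1)
    rw [intervalIntegral.integral_mul_const] at this
    simp only [one_mul, zero_mul, add_zero, add_sub_cancel] at this
    rw [← this, mul_comm]
    rfl
  have hkc : Continuous k := h.slope_cont p q
  have hD : ∀ s, HasDerivAt (fun s => (Y s - X s) * Real.exp (∫ r in a..s, k r)) 0 s := by
    intro s
    exact (((h.flow_hasDeriv q s).sub (h.flow_hasDeriv p s)).mul
      (hkc.integral_hasStrictDerivAt a s).hasDerivAt.exp).congr_deriv (by
        simp only [Pi.sub_apply]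
        linear_combination -Real.exp (∫ r in a..s, k r) * hk s)
  have := is_const_of_deriv_eq_zero (fun s => (hD s).differentiableAt) (fun s => (hD s).deriv) t a
  simp only [intervalIntegral.integral_same, Real.exp_zero, mul_one] at this
  rw [← this, Real.exp_neg, mul_assoc, mul_inv_cancel₀ (Real.exp_pos _).ne', mul_one]

/-- Displacement in the base line `y = p.2` of the characteristic through `q`. -/
theorem Speed.flow_base (h : Speed v B L) (p q : P2) :
    flow v q p.2 = q.1 + (q.2 - p.2) *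
      ∫ θ in (0 : ℝ)..1, v (flow v q (q.2 + θ * (p.2 - q.2)), q.2 + θ * (p.2 - q.2)) := by
  have := h.flow_increment q q.2 p.2
  rw [h.flow_zero] at this
  linarith

theorem Speed.abs_flow_sub (h : Speed v B L) (p : P2) (a b : ℝ) :
    |flow v p b - flow v p a| ≤ B * |b - a| := by
  rw [h.flow_increment, abs_neg, abs_mul, mul_comm B]
  refine mul_le_mul_of_nonneg_left ?_ (abs_nonneg _)
  simpa using intervalIntegral.norm_integral_le_of_norm_le_const (a := (0:ℝ)) (b := 1) (C := B)
    (f := fun θ => v (flow v p (a + θ * (b - a)), a + θ * (b - a))) fun θ _ => h.bound _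

theorem Speed.continuous_flow (h : Speed v B L) :
    Continuous fun z : P2 × ℝ => flow v z.1 z.2 := by
  rw [continuous_iff_continuousAt]
  rintro ⟨p, t⟩
  rw [ContinuousAt, tendsto_iff_norm_sub_tendsto_zero]
  set g : P2 × ℝ → ℝ := fun z => (|z.1.1 - p.1| + B * |p.2 - z.1.2|) *
    Real.exp (L * |z.2 - p.2|) + B * |z.2 - t|
  have hg : Tendsto g (𝓝 (p, t)) (𝓝 0) := by
    have : Continuous g := by fun_prop
    simpa [g] using this.tendsto (p, t)
  refine squeeze_zero (fun z => norm_nonneg _) ?_ hg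
  rintro ⟨q, s⟩
  have h1 : |flow v q p.2 - p.1| ≤ |q.1 - p.1| + B * |p.2 - q.2| := by
    have := h.abs_flow_sub q q.2 p.2
    rw [h.flow_zero] at this
    linarith [abs_sub_le (flow v q p.2) q.1 p.1]
  have h2 : |flow v q s - flow v p s| ≤
      (|q.1 - p.1| + B * |p.2 - q.2|) * Real.exp (L * |s - p.2|) := by
    rw [h.flow_diff p q p.2 s, h.flow_zero, abs_mul, Real.abs_exp]
    gcongr
    · exact add_nonneg (abs_nonneg _) (mul_nonneg h.B_nonneg (abs_nonneg _))
    · have := intervalIntegral.norm_integral_le_of_norm_le_const (a := p.2) (b := s) (C := L)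
        (f := slopeAlong v p q) fun r _ => (Real.norm_eq_abs _).trans_le (h.abs_slopeAlong p q r)
      exact (neg_le_abs _).trans this
  show ‖flow v q s - flow v p t‖ ≤ _
  rw [Real.norm_eq_abs]
  linarith [abs_sub_le (flow v q s) (flow v p s) (flow v p t), h.abs_flow_sub p t s]

/-- Exact first order expansion of the flow about a point. -/
theorem Speed.hasFDerivAt_flow (h : Speed v B L) (z : P2 × ℝ) :
    HasFDerivAt (fun z : P2 × ℝ => flow v z.1 z.2)
      (jac v z • (ContinuousLinearMap.fst ℝ ℝ ℝ).comp (ContinuousLinearMap.fst ℝ P2 ℝ) +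
        (jac v z * v z.1) • (ContinuousLinearMap.snd ℝ ℝ ℝ).comp (ContinuousLinearMap.fst ℝ P2 ℝ) +
        (-v (flow v z.1 z.2, z.2)) • ContinuousLinearMap.snd ℝ P2 ℝ) z := by
  obtain ⟨⟨x, y⟩, t⟩ := z
  set p : P2 := (x, y) with hp
  set e : P2 × ℝ → ℝ := fun w => Real.exp (-∫ s in y..w.2, slopeAlong v p w.1 s) with he
  set back : P2 × ℝ → ℝ := fun w => ∫ θ in (0 : ℝ)..1,
    v (flow v w.1 (w.1.2 + θ * (y - w.1.2)), w.1.2 + θ * (y - w.1.2)) with hb
  set fwd : P2 × ℝ → ℝ := fun w => ∫ θ in (0 : ℝ)..1,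
    v (flow v p (t + θ * (w.2 - t)), t + θ * (w.2 - t)) with hf
  set l : P2 × ℝ → (P2 × ℝ) →L[ℝ] ℝ := fun w =>
    e w • (ContinuousLinearMap.fst ℝ ℝ ℝ).comp (ContinuousLinearMap.fst ℝ P2 ℝ) +
      (e w * back w) • (ContinuousLinearMap.snd ℝ ℝ ℝ).comp (ContinuousLinearMap.fst ℝ P2 ℝ) +
      (-fwd w) • ContinuousLinearMap.snd ℝ P2 ℝ with hl
  have hF := h.continuous_flow
  have hec : Continuous e := by
    have hs : Continuous fun w : (P2 × ℝ) × ℝ => slopeAlong v p w.1.1 w.2 := by
      refine intervalIntegral.continuous_parametric_intervalIntegral_of_continuous'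
        (f := fun (w : (P2 × ℝ) × ℝ) θ =>
          d1 v (flow v p w.2 + θ * (flow v w.1.1 w.2 - flow v p w.2), w.2)) ?_ 0 1
      have a1 : Continuous fun u : ((P2 × ℝ) × ℝ) × ℝ => flow v p u.1.2 :=
        (h.flow_cont p).comp (by fun_prop)
      have a2 : Continuous fun u : ((P2 × ℝ) × ℝ) × ℝ => flow v u.1.1.1 u.1.2 :=
        hF.comp (by fun_prop : Continuous fun u : ((P2 × ℝ) × ℝ) × ℝ => (u.1.1.1, u.1.2))
      exact (continuous_pd h.smooth (1, 0)).comp
        ((a1.add (continuous_snd.mul (a2.sub a1))).prodMk (by fun_prop))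
    exact (intervalIntegral.continuous_parametric_intervalIntegral_of_continuous
      (f := fun (w : P2 × ℝ) s => slopeAlong v p w.1 s) hs continuous_snd).neg.rexp
  have hbc : Continuous back := by
    refine intervalIntegral.continuous_parametric_intervalIntegral_of_continuous'
      (f := fun (w : P2 × ℝ) θ =>
        v (flow v w.1 (w.1.2 + θ * (y - w.1.2)), w.1.2 + θ * (y - w.1.2))) ?_ 0 1
    exact h.smooth.continuous.comp ((hF.comp (by fun_prop : Continuous fun u : (P2 × ℝ) × ℝ =>
      (u.1.1, u.1.1.2 + u.2 * (y - u.1.1.2)))).prodMk (by fun_prop))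
  have hfc : Continuous fwd := by
    refine intervalIntegral.continuous_parametric_intervalIntegral_of_continuous'
      (f := fun (w : P2 × ℝ) θ => v (flow v p (t + θ * (w.2 - t)), t + θ * (w.2 - t))) ?_ 0 1
    exact h.smooth.continuous.comp
      (((h.flow_cont p).comp (by fun_prop)).prodMk (by fun_prop))
  have hlc : Continuous l := by fun_prop
  have hrep : ∀ w : P2 × ℝ, flow v w.1 w.2 - flow v (x, y) t = l w (w - ((x, y), t)) := by
    rintro ⟨q, s⟩
    have h1 := h.flow_diff p q y s
    have h2 : flow v q y = q.1 + (q.2 - y) * back (q, s) := h.flow_base p q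
    have h3 : flow v p s - flow v p t = -((s - t) * fwd (q, s)) := h.flow_increment p t s
    have h4 : flow v p y = x := h.flow_zero p
    rw [h2, h4] at h1
    simp only [hl, add_apply, smul_apply, ContinuousLinearMap.coe_comp, Function.comp_apply,
      ContinuousLinearMap.coe_fst', ContinuousLinearMap.coe_snd', Prod.fst_sub, Prod.snd_sub,
      smul_eq_mul]
    simp only [he] at *
    linarith
  have hmain := hasFDerivAt_of_repr (f := fun w : P2 × ℝ => flow v w.1 w.2) (l := l)
    (x₀ := ((x, y), t)) hlc.continuousAt hrep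
  have e0 : e ((x, y), t) = jac v ((x, y), t) := by
    simp only [he, jac, meanAlong, slopeAlong, ← hp]
    have := intervalIntegral.smul_integral_comp_mul_add (f := fun s => d1 v (flow v p s, s))
      (a := (0:ℝ)) (b := 1) (t - y) y
    rw [smul_eq_mul] at this
    simp only [sub_self, mul_zero, add_zero, intervalIntegral.integral_const, sub_zero, one_smul,
      zero_add, mul_one, sub_add_cancel] at this ⊢
    rw [← this]
    simp only [hp, mul_comm _ (t - y), add_comm y]
  have b0 : back ((x, y), t) = v (x, y) := by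
    simp [hb, h.flow_zero (x, y)]
  have f0 : fwd ((x, y), t) = v (flow v (x, y) t, t) := by
    simp [hf, hp]
  simp only [hl, e0, b0, f0] at hmain
  exact hmain

theorem Speed.contDiff_meanAlong (_h : Speed v B L) {g : P2 → ℝ} {m : ℕ} (hg : ContDiff ℝ m g)
    (hF : ContDiff ℝ m fun z : P2 × ℝ => flow v z.1 z.2) : ContDiff ℝ m (meanAlong v g) :=
  contDiff_param m (F := fun (z : P2 × ℝ) θ =>
    g (flow v z.1 (z.1.2 + θ * (z.2 - z.1.2)), z.1.2 + θ * (z.2 - z.1.2)))
    (hg.comp ((hF.comp (by fun_prop : ContDiff ℝ m fun u : (P2 × ℝ) × ℝ =>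
      (u.1.1, u.1.1.2 + u.2 * (u.1.2 - u.1.1.2)))).prodMk (by fun_prop))) 0 1

theorem contDiff_pd {f : P2 → ℝ} {m n : ℕ} (hf : ContDiff ℝ n f) (hm : m + 1 ≤ n) (u : P2) :
    ContDiff ℝ m fun x => fderiv ℝ f x u :=
  (hf.fderiv_right (m := m) (by exact_mod_cast hm)).clm_apply contDiff_const

/-- The flow is as smooth as the speed. -/
theorem Speed.contDiff_flow (h : Speed v B L) {n : ℕ} (hv : ContDiff ℝ n v) :
    ContDiff ℝ n fun z : P2 × ℝ => flow v z.1 z.2 := by
  suffices ∀ m : ℕ, m ≤ n → ContDiff ℝ m fun z : P2 × ℝ => flow v z.1 z.2 from this n le_rfl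
  intro m
  induction m with
  | zero => exact fun _ => contDiff_zero.2 h.continuous_flow
  | succ m ih =>
    intro hm
    have hF := ih (by omega)
    have hv' : ContDiff ℝ m v := hv.of_le (by exact_mod_cast Nat.le_of_succ_le hm)
    rw [show ((m + 1 : ℕ) : WithTop ℕ∞) = (m : WithTop ℕ∞) + 1 by norm_cast,
      contDiff_succ_iff_fderiv]
    refine ⟨fun z => (h.hasFDerivAt_flow z).differentiableAt, by simp, ?_⟩
    rw [funext fun z => (h.hasFDerivAt_flow z).fderiv]
    have hJ : ContDiff ℝ m (jac v) := by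
      unfold jac
      exact ((by fun_prop : ContDiff ℝ m fun z : P2 × ℝ => z.2 - z.1.2).mul
        (h.contDiff_meanAlong (g := d1 v) (contDiff_pd hv hm (1, 0)) hF)).neg.exp
    exact ((hJ.smul contDiff_const).add ((hJ.mul (hv'.comp contDiff_fst)).smul contDiff_const)).add
      ((hv'.comp (hF.prodMk contDiff_snd)).neg.smul contDiff_const)

end Vale.Agent.P229
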