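import Vale.Agent.P229.Defs

/-!
# P229 interfaces between seats

Each `Prop` below is proved in the file of its seat; nothing here is an assumption of a hand-in.
-/

namespace Vale.Agent.P229

open scoped RealInnerProductSpace

/-- FINAL STATEMENT (Q1 disproved). -/
def FinalStatement : Prop :=
  ∃ φ : P2 → ℝ, ContDiff ℝ (⊤ : ℕ∞) φ ∧
    ∀ U : Set P2, IsOpen U → (0 : P2) ∈ U →
      ¬∃ F : P2 → R3, ContDiffOn ℝ (⊤ : ℕ∞) F U ∧ IsIsom φ U F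

/-- SEAT A. Height functions of an isometric immersion solve the Darboux equation. -/
def DarbouxOfIsom : Prop :=
  ∀ (φ : P2 → ℝ) (U : Set P2) (F : P2 → R3) (ν : R3), IsOpen U → ContDiff ℝ (⊤ : ℕ∞) φ →
    ContDiffOn ℝ (⊤ : ℕ∞) F U → IsIsom φ U F → ‖ν‖ = 1 →
    ∀ x ∈ U, Darboux 1 φ (fun y => ⟪F y, ν⟫) x

/-- ISLAND (seat E proves it from SeaRegularity, Core and FewKeys; seat A uses it).
`u = false`: row along the first axis, `u = true`: along the second. -/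
def IslandLemma : Prop :=
  ∀ (z₀ : P2) (R c M ε : ℝ) (j : ℕ) (u : Bool), 0 < R → 0 < c → 0 < ε →
    ∃ ψ : P2 → ℝ, ContDiff ℝ (⊤ : ℕ∞) ψ ∧ tsupport ψ ⊆ Metric.ball z₀ R ∧
      (∀ x, ∀ i : ℕ, i ≤ j → ‖iteratedFDeriv ℝ i ψ x‖ ≤ ε) ∧
      ¬∃ ζ : P2 → ℝ, ContDiffOn ℝ (⊤ : ℕ∞) ζ (Metric.ball z₀ R) ∧
        (∀ x ∈ Metric.ball z₀ R, ∀ i : ℕ, i ≤ 8 → ‖iteratedFDeriv ℝ i ζ x‖ ≤ M) ∧
        fderiv ℝ ζ z₀ = 0 ∧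
        c ≤ (if u then |d2 (d2 ζ) z₀| else |d1 (d1 ζ) z₀|) ∧
        ∀ x ∈ Metric.ball z₀ R, Darboux 1 ψ ζ x

/-- SEAT B. A priori bounds of every order in the elliptic sea. -/
def SeaRegularity : Prop :=
  ∀ (φ : P2 → ℝ) (κ r r' s s' M c : ℝ) (N : ℕ), ContDiff ℝ (⊤ : ℕ∞) φ →
    0 < c → 0 < r → r < s → s < s' → s' < r' → r' < 2 →
    ∃ C : ℝ, ∀ Z : P2 → ℝ,
      ContDiffOn ℝ (⊤ : ℕ∞) Z {x | rsq x < 2} →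
      (∀ x ∈ Ann r r', ∀ i : ℕ, i ≤ 8 → ‖iteratedFDeriv ℝ i Z x‖ ≤ M) →
      (∀ x ∈ Ann r r', Darboux κ φ Z x) →
      (∀ x ∈ Ann r r', c ≤ H11 φ Z x * H22 φ Z x - H12 φ Z x ^ 2) →
      ∀ x ∈ Ann s s', ∀ i : ℕ, i ≤ N → ‖iteratedFDeriv ℝ i Z x‖ ≤ C

/-- SEATS C, D. The linear obstruction. -/
def Core : Prop :=
  ∀ T : ℝ, 0 < T → ∃ τ e₀ : ℝ, 0 < τ ∧ 0 < e₀ ∧
    ∀ elo ehi K : ℝ, 0 < elo → elo ≤ ehi → ehi ≤ e₀ → 1 ≤ K →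
      ∃ σ h Λ₀ C : ℝ, 0 < σ ∧ σ ≤ 1/10 ∧ 0 < h ∧ 1 ≤ Λ₀ ∧ 0 < C ∧
        ∀ (e : ℝ) (P : Coef), e ∈ Set.Icc elo ehi → P.Good e τ K σ →
        ∀ (n : ℕ) (Λ μ δ slope : ℝ) (t d : Fin n → ℝ) (q g w : P2 → ℝ),
          Λ₀ ≤ Λ → 0 ≤ μ → 0 ≤ δ → |slope| ≤ T →
          (∀ i, |t i| ≤ Real.sqrt elo / (50 * (1 + T))) →
          (∀ i k, i ≠ k → 16 * (1 + T) / Λ ≤ |t i - t k|) →
          (∀ i, d i = -1 ∨ d i = 0 ∨ d i = 1) →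
          ContDiff ℝ 1 q →
          (∀ x ∈ Dsk (3/2), 1 / K ≤ q x ∧ q x ≤ K ∧ |d1 q x| ≤ K ∧ |d2 q x| ≤ K) →
          Continuous g → (∀ x, |g x| ≤ K * μ * Λ) →
          (∀ x, (∀ i, d i = 0 ∨ 1 < rsq (Λ * (x.1 - t i), Λ * (x.2 - slope * t i))) → g x = 0) →
          ContDiff ℝ 3 w →
          (∀ x ∈ Dsk (3/2),
            P.op w x = q x * lap (combB μ Λ (fun i => (t i, slope * t i)) d) x + g x) →
          DataSmall σ h δ w →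
          μ * active d ≤ C * δ * Λ ^ 4

/-- SEAT E. Few keys for uniformly smooth families on an annulus. -/
def FewKeys : Prop :=
  ∀ (r s s' r' C : ℝ) (N : ℕ), 0 < r → r < s → s < s' → s' < r' → 8 ≤ N →
    ∃ A : ℝ, ∀ δ : ℝ, 0 < δ → δ < 1 → ∀ (ι : Type) [Fintype ι] (f : ι → P2 → ℝ),
      (∀ i, ContDiffOn ℝ (⊤ : ℕ∞) (f i) (interior (Ann r r'))) →
      (∀ i, ∀ x ∈ interior (Ann r r'), ∀ k : ℕ, k ≤ N → ‖iteratedFDeriv ℝ k (f i) x‖ ≤ C) →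
      Real.exp (A * δ ^ (-(4 : ℝ) / N)) < (Fintype.card ι : ℝ) →
      ∃ i k, i ≠ k ∧ ∀ x ∈ Ann s s',
        |f i x - f k x| ≤ δ ∧ |d1 (f i) x - d1 (f k) x| ≤ δ ∧ |d2 (f i) x - d2 (f k) x| ≤ δ

end Vale.Agent.P229
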