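import Vale.Agent.P229.Flow

/-!
# P229: transported labels and line integrals

For a speed `v` (`Speed v B L`): `s = label v` solves `d2 s = v * d1 s`, `s (x, 0) = x`, and
`J = lineInt v g` solves `d2 J - v * d1 J = g`, `J (x, 0) = 0`.
-/

namespace Vale.Agent.P229

open MeasureTheory Set Filter Topology

/-- The label: abscissa where the characteristic meets `y = 0`. -/
noncomputable def label (v : P2 → ℝ) (p : P2) : ℝ := flow v p 0

/-- The integral of `g` along the characteristic, from height zero. -/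
noncomputable def lineInt (v g : P2 → ℝ) (p : P2) : ℝ :=
  ∫ t in (0 : ℝ)..p.2, g (flow v p t, t)

variable {v g : P2 → ℝ} {B L : ℝ}

theorem Speed.hasDerivAt_flow_fst (h : Speed v B L) (p : P2) (t : ℝ) :
    HasDerivAt (fun x => flow v (x, p.2) t) (jac v (p, t)) p.1 := by
  have h1 : HasDerivAt (fun x : ℝ => (((x, p.2) : P2), t)) ((((1 : ℝ), (0 : ℝ)) : P2), (0 : ℝ)) p.1 :=
    ((hasDerivAt_id p.1).prodMk (hasDerivAt_const p.1 p.2)).prodMk (hasDerivAt_const p.1 t)
  have := (h.hasFDerivAt_flow (p, t)).comp_hasDerivAt p.1 h1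
  simpa [Function.comp_def] using this

theorem lineInt_eq (v g : P2 → ℝ) (p : P2) :
    lineInt v g p = p.2 * ∫ θ in (0 : ℝ)..1, g (flow v p (θ * p.2), θ * p.2) := by
  have := intervalIntegral.smul_integral_comp_mul_add (f := fun t => g (flow v p t, t))
    (a := (0 : ℝ)) (b := 1) p.2 0
  simp only [smul_eq_mul, add_zero, mul_zero, mul_one] at this
  rw [lineInt, ← this]
  simp only [mul_comm _ p.2]

theorem Speed.contDiff_label (h : Speed v B L) {n : ℕ} (hv : ContDiff ℝ n v) :
    ContDiff ℝ n (label v) :=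
  (h.contDiff_flow hv).comp (contDiff_id.prodMk contDiff_const)

theorem Speed.contDiff_lineInt (h : Speed v B L) {n : ℕ} (hv : ContDiff ℝ n v)
    (hg : ContDiff ℝ n g) : ContDiff ℝ n (lineInt v g) := by
  rw [funext (lineInt_eq v g)]
  exact contDiff_snd.mul (contDiff_param n (F := fun (p : P2) θ => g (flow v p (θ * p.2), θ * p.2))
    (hg.comp (((h.contDiff_flow hv).comp (by fun_prop : ContDiff ℝ n fun u : P2 × ℝ =>
      (u.1, u.2 * u.1.2))).prodMk (by fun_prop))) 0 1)

/-- Characteristics stay within `B |y - t|` of their starting abscissa. -/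
theorem Speed.abs_flow_start (h : Speed v B L) (p : P2) (t : ℝ) :
    |flow v p t - p.1| ≤ B * |t - p.2| := by
  simpa [h.flow_zero p] using h.abs_flow_sub p p.2 t

theorem Speed.jac_bounds (h : Speed v B L) (p : P2) (t : ℝ) :
    Real.exp (-(L * |t - p.2|)) ≤ jac v (p, t) ∧ jac v (p, t) ≤ Real.exp (L * |t - p.2|) := by
  have h1 : |(t - p.2) * meanAlong v (d1 v) (p, t)| ≤ L * |t - p.2| := by
    rw [abs_mul, mul_comm L]
    refine mul_le_mul_of_nonneg_left ?_ (abs_nonneg _)
    simpa [meanAlong] using intervalIntegral.norm_integral_le_of_norm_le_const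
      (f := fun θ => d1 v (flow v p (p.2 + θ * (t - p.2)), p.2 + θ * (t - p.2)))
      (a := (0 : ℝ)) (b := 1) (C := L) fun θ _ => h.lip _
  obtain ⟨h2, h3⟩ := abs_le.1 h1
  constructor <;> refine Real.exp_le_exp.2 ?_ <;> simp only at * <;> linarith

theorem Speed.label_zero (h : Speed v B L) (x : ℝ) : label v (x, 0) = x := h.flow_zero (x, 0)

theorem Speed.abs_label_sub (h : Speed v B L) (p : P2) : |label v p - p.1| ≤ B * |p.2| := by
  simpa [label] using h.abs_flow_start p 0

/-- The label is constant along characteristics. -/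
theorem Speed.label_flow (h : Speed v B L) (p : P2) (t : ℝ) :
    label v (flow v p t, t) = label v p := by
  rw [label, label, h.flow_flow]

theorem Speed.hasFDerivAt_label (h : Speed v B L) (p : P2) :
    HasFDerivAt (label v) (jac v (p, 0) • ContinuousLinearMap.fst ℝ ℝ ℝ +
      (jac v (p, 0) * v p) • ContinuousLinearMap.snd ℝ ℝ ℝ) p := by
  have h1 : HasFDerivAt (fun q : P2 => (q, (0 : ℝ))) (ContinuousLinearMap.inl ℝ P2 ℝ) p :=
    (hasFDerivAt_id p).prodMk (hasFDerivAt_const (0 : ℝ) p)
  have h2 := HasFDerivAt.comp (f := fun q : P2 => (q, (0 : ℝ))) p (h.hasFDerivAt_flow (p, 0)) h1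
  refine h2.congr_fderiv (ContinuousLinearMap.ext fun w => ?_)
  simp

theorem Speed.d1_label (h : Speed v B L) (p : P2) : d1 (label v) p = jac v (p, 0) := by
  rw [d1, (h.hasFDerivAt_label p).fderiv]
  simp

theorem Speed.d2_label (h : Speed v B L) (p : P2) :
    d2 (label v) p = v p * d1 (label v) p := by
  rw [h.d1_label, d2, (h.hasFDerivAt_label p).fderiv]
  simp [mul_comm]

theorem Speed.d1_label_pos (h : Speed v B L) (p : P2) : 0 < d1 (label v) p := by
  rw [h.d1_label]; exact jac_pos _ _

theorem Speed.d1_label_bounds (h : Speed v B L) (p : P2) :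
    Real.exp (-(L * |p.2|)) ≤ d1 (label v) p ∧ d1 (label v) p ≤ Real.exp (L * |p.2|) := by
  rw [h.d1_label]
  simpa using h.jac_bounds p 0

/-- The abscissa derivative of the label as a line integral. -/
theorem Speed.d1_label_eq_exp (h : Speed v B L) (p : P2) :
    d1 (label v) p = Real.exp (lineInt v (d1 v) p) := by
  rw [h.d1_label, jac, lineInt, intervalIntegral.integral_symm]
  have := intervalIntegral.smul_integral_comp_mul_add (f := fun t => d1 v (flow v p t, t))
    (a := (0 : ℝ)) (b := 1) (0 - p.2) p.2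
  simp only [smul_eq_mul, mul_zero, mul_one, zero_add, sub_add_cancel] at this
  rw [← this]
  simp only [meanAlong, mul_comm _ ((0 : ℝ) - p.2), add_comm p.2]

theorem lineInt_zero (v g : P2 → ℝ) (x : ℝ) : lineInt v g (x, 0) = 0 := by simp [lineInt]

/-- Bound on a line integral by a bound on the integrand along the characteristic. -/
theorem abs_lineInt_le (v g : P2 → ℝ) {G : ℝ} (p : P2)
    (hG : ∀ t ∈ uIcc 0 p.2, |g (flow v p t, t)| ≤ G) : |lineInt v g p| ≤ G * |p.2| := by
  simpa [lineInt] using intervalIntegral.norm_integral_le_of_norm_le_const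
    (f := fun t => g (flow v p t, t)) (a := (0 : ℝ)) (b := p.2) (C := G)
    fun t ht => hG t (uIoc_subset_uIcc ht)

/-- Transport equation of the line integral. -/
theorem Speed.lineInt_eq_source (h : Speed v B L) (hv : ContDiff ℝ 1 v) (hg : ContDiff ℝ 1 g)
    (p : P2) : d2 (lineInt v g) p - v p * d1 (lineInt v g) p = g p := by
  have hJ := (h.contDiff_lineInt (n := 1) (by exact_mod_cast hv) (by exact_mod_cast hg)).differentiable
    (by simp)
  have hflow : HasDerivAt (fun t => ((flow v p t, t) : P2)) (-v p, 1) p.2 := by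
    simpa [h.flow_zero p] using (h.flow_hasDeriv p p.2).prodMk (hasDerivAt_id p.2)
  have h1 := HasFDerivAt.comp_hasDerivAt (f := fun t => ((flow v p t, t) : P2)) p.2
    (hJ (flow v p p.2, p.2)).hasFDerivAt hflow
  have hc : Continuous fun t => g (flow v p t, t) :=
    hg.continuous.comp ((h.flow_cont p).prodMk continuous_id)
  have h2 : HasDerivAt (fun t => lineInt v g (flow v p t, t)) (g p) p.2 := by
    have e : (fun t => lineInt v g (flow v p t, t)) =
        fun t => ∫ s in (0 : ℝ)..t, g (flow v p s, s) := by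
      funext t
      simp only [lineInt, h.flow_flow p t]
    rw [e]
    simpa [h.flow_zero p] using (hc.integral_hasStrictDerivAt 0 p.2).hasDerivAt
  have h3 := h1.unique h2
  rw [h.flow_zero p] at h3
  have e : ((-v p, (1 : ℝ)) : P2) = (-v p) • ((1 : ℝ), (0 : ℝ)) + ((0 : ℝ), (1 : ℝ)) := by simp
  rw [e, map_add, map_smul, smul_eq_mul] at h3
  simp only [d1, d2]
  linarith [h3]

/-- Abscissa derivative of a line integral. -/
theorem Speed.d1_lineInt (h : Speed v B L) (hv : ContDiff ℝ 1 v) (hg : ContDiff ℝ 1 g) (p : P2) :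
    d1 (lineInt v g) p = ∫ t in (0 : ℝ)..p.2, d1 g (flow v p t, t) * jac v (p, t) := by
  have hJ := (h.contDiff_lineInt (n := 1) (by exact_mod_cast hv) (by exact_mod_cast hg)).differentiable
    (by simp)
  have hF : ContDiff ℝ 1 fun z : P2 × ℝ => flow v z.1 z.2 := by
    simpa using h.contDiff_flow (n := 1) (by exact_mod_cast hv)
  have hf : ContDiff ℝ 1 fun z : ℝ × ℝ => g (flow v (z.1, p.2) z.2, z.2) :=
    hg.comp ((hF.comp (by fun_prop : ContDiff ℝ 1 fun z : ℝ × ℝ => (((z.1, p.2) : P2), z.2))).prodMk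
      contDiff_snd)
  have h1 := hasDerivAt_slice1 hJ p.1 p.2
  have h2 : HasDerivAt (fun x => lineInt v g (x, p.2))
      (∫ t in (0 : ℝ)..p.2, deriv (fun x => g (flow v (x, p.2) t, t)) p.1) p.1 := by
    set F : ℝ → ℝ → ℝ := fun x t => g (flow v (x, p.2) t, t) with hFdef
    have hc : Continuous fun z : ℝ × ℝ =>
        (fderiv ℝ (fun z : ℝ × ℝ => F z.1 z.2) z).comp (ContinuousLinearMap.inl ℝ ℝ ℝ) :=
      (hf.continuous_fderiv one_ne_zero).clm_comp continuous_const
    have hd := hasFDerivAt_param (F := F) hf.continuous hc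
      (hasFDerivAt_fst_slot (F := F) (hf.differentiable one_ne_zero)) 0 p.2 p.1
    have := hd.hasDerivAt
    have hi : IntervalIntegrable (fun t =>
        (fderiv ℝ (fun z : ℝ × ℝ => F z.1 z.2) (p.1, t)).comp (ContinuousLinearMap.inl ℝ ℝ ℝ))
        volume 0 p.2 := (hc.comp (Continuous.prodMk_right p.1)).intervalIntegrable 0 p.2
    rw [ContinuousLinearMap.intervalIntegral_apply hi] at this
    refine this.congr_deriv (intervalIntegral.integral_congr fun t _ => ?_)
    exact ((hasFDerivAt_fst_slot (F := F) (hf.differentiable one_ne_zero) p.1 t).hasDerivAt.deriv).symm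
  rw [h1.unique h2]
  refine intervalIntegral.integral_congr fun t _ => ?_
  exact ((hasDerivAt_slice1 (hg.differentiable one_ne_zero) (flow v p t) t).comp p.1
    (h.hasDerivAt_flow_fst p t)).deriv

theorem Speed.abs_d1_lineInt_le (h : Speed v B L) (hv : ContDiff ℝ 1 v) (hg : ContDiff ℝ 1 g)
    {G : ℝ} (p : P2) (hG : ∀ t ∈ uIcc 0 p.2, |d1 g (flow v p t, t)| ≤ G) :
    |d1 (lineInt v g) p| ≤ G * |p.2| * Real.exp (L * |p.2|) := by
  rw [h.d1_lineInt hv hg]
  have hG0 : 0 ≤ G := (abs_nonneg _).trans (hG 0 left_mem_uIcc)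
  have key : ∀ t ∈ Set.uIoc 0 p.2, ‖d1 g (flow v p t, t) * jac v (p, t)‖ ≤
      G * Real.exp (L * |p.2|) := by
    intro t ht
    have ht' := uIoc_subset_uIcc ht
    rw [Real.norm_eq_abs, abs_mul, abs_of_pos (jac_pos v _)]
    refine mul_le_mul (hG t ht') ((h.jac_bounds p t).2.trans (Real.exp_le_exp.2
      (mul_le_mul_of_nonneg_left ?_ h.L_nonneg))) (jac_pos v _).le hG0
    simpa [abs_sub_comm t p.2] using abs_sub_right_of_mem_uIcc ht'
  have := intervalIntegral.norm_integral_le_of_norm_le_const key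
  rw [Real.norm_eq_abs, sub_zero] at this
  linarith [this, mul_right_comm G (Real.exp (L * |p.2|)) |p.2|]

theorem Speed.lineInt_eq_source' (h : Speed v B L) (hg : ContDiff ℝ 1 g) (p : P2) :
    d2 (lineInt v g) p = v p * d1 (lineInt v g) p + g p := by
  linarith [h.lineInt_eq_source h.smooth hg p]

theorem Speed.d11_label (h : Speed v B L) (hv : ContDiff ℝ 2 v) (p : P2) :
    d1 (d1 (label v)) p = d1 (lineInt v (d1 v)) p * d1 (label v) p := by
  have hg : ContDiff ℝ 1 (d1 v) := contDiff_pd (n := 2) (by exact_mod_cast hv) le_rfl (1, 0)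
  have hJ := (h.contDiff_lineInt (n := 1) (by exact_mod_cast h.smooth)
    (by exact_mod_cast hg)).differentiable (by simp)
  rw [h.d1_label_eq_exp p, funext h.d1_label_eq_exp, d1]
  rw [((hJ p).hasFDerivAt.exp).fderiv]
  simp [d1, mul_comm]

theorem Speed.abs_d11_label (h : Speed v B L) (hv : ContDiff ℝ 2 v) {L₂ : ℝ}
    (hL₂ : ∀ x, |d1 (d1 v) x| ≤ L₂) (p : P2) :
    |d1 (d1 (label v)) p| ≤ L₂ * |p.2| * Real.exp (2 * (L * |p.2|)) := by
  have hg : ContDiff ℝ 1 (d1 v) := contDiff_pd (n := 2) (by exact_mod_cast hv) le_rfl (1, 0)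
  have h1 := h.abs_d1_lineInt_le h.smooth hg p (G := L₂) fun t _ => hL₂ _
  rw [h.d11_label hv, abs_mul, abs_of_pos (h.d1_label_pos p), two_mul, Real.exp_add, ← mul_assoc]
  exact mul_le_mul h1 (h.d1_label_bounds p).2 (h.d1_label_pos p).le
    (mul_nonneg (mul_nonneg ((abs_nonneg _).trans (hL₂ 0)) (abs_nonneg _)) (Real.exp_pos _).le)

/-- Transport equation of the abscissa derivative of the label. -/
theorem Speed.d2_d1_label (h : Speed v B L) (hv : ContDiff ℝ 2 v) (p : P2) :
    d2 (d1 (label v)) p = v p * d1 (d1 (label v)) p + d1 v p * d1 (label v) p := by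
  have hg : ContDiff ℝ 1 (d1 v) := contDiff_pd (n := 2) (by exact_mod_cast hv) le_rfl (1, 0)
  have hJ := (h.contDiff_lineInt (n := 1) (by exact_mod_cast h.smooth)
    (by exact_mod_cast hg)).differentiable (by simp)
  have e1 : d2 (d1 (label v)) p = d2 (lineInt v (d1 v)) p * d1 (label v) p := by
    rw [h.d1_label_eq_exp p, funext h.d1_label_eq_exp, d2]
    rw [((hJ p).hasFDerivAt.exp).fderiv]
    simp [d2, mul_comm]
  rw [e1, h.d11_label hv, h.lineInt_eq_source' hg]
  ring

/-- The second height derivative of the label. -/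
theorem Speed.d22_label (h : Speed v B L) (hv : ContDiff ℝ 2 v) (p : P2) :
    d2 (d2 (label v)) p = d2 v p * d1 (label v) p + v p * d2 (d1 (label v)) p := by
  have hs : Differentiable ℝ (d1 (label v)) :=
    (contDiff_pd (n := 2) (m := 1) (h.contDiff_label (by exact_mod_cast hv)) le_rfl
      (1, 0)).differentiable (by simp)
  rw [funext h.d2_label]
  simp only [d2]
  rw [((h.smooth.differentiable one_ne_zero p).hasFDerivAt.fun_mul (hs p).hasFDerivAt).fderiv]
  simp only [add_apply, smul_apply, smul_eq_mul]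
  ring

/-- The mixed derivative of the label, in the other order. -/
theorem Speed.d1_d2_label (h : Speed v B L) (hv : ContDiff ℝ 2 v) (p : P2) :
    d1 (d2 (label v)) p = d2 (d1 (label v)) p := by
  have hs : Differentiable ℝ (d1 (label v)) :=
    (contDiff_pd (n := 2) (m := 1) (h.contDiff_label (by exact_mod_cast hv)) le_rfl
      (1, 0)).differentiable (by simp)
  rw [h.d2_d1_label hv, funext h.d2_label]
  show fderiv ℝ (fun x => v x * d1 (label v) x) p (1, 0) = _
  rw [((h.smooth.differentiable one_ne_zero p).hasFDerivAt.fun_mul (hs p).hasFDerivAt).fderiv]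
  simp only [add_apply, smul_apply, smul_eq_mul, d1]
  ring

/-- A positive amplitude `A = exp (- lineInt v g)` solves `d2 A - v d1 A = - g A`. -/
theorem Speed.amplitude_eq (h : Speed v B L) (hg : ContDiff ℝ 1 g) (p : P2) :
    d2 (fun q => Real.exp (-lineInt v g q)) p - v p * d1 (fun q => Real.exp (-lineInt v g q)) p =
      -(g p * Real.exp (-lineInt v g p)) := by
  have hJ := (h.contDiff_lineInt (n := 1) (by exact_mod_cast h.smooth)
    (by exact_mod_cast hg)).differentiable (by simp)
  have e := (hJ p).hasFDerivAt.fun_neg.exp.fderiv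
  have key := h.lineInt_eq_source h.smooth hg p
  simp only [d1, d2] at key ⊢
  rw [e]
  simp only [smul_apply, neg_apply, smul_eq_mul]
  linear_combination -Real.exp (-lineInt v g p) * key

end Vale.Agent.P229
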