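import Vale.Agent.P229.Label
import Vale.Agent.P229.EnergyDefs

/-!
# P229: the label needed by the energy estimate
-/

namespace Vale.Agent.P229

theorem contDiff_two_of_good {P : Coef} {e τ K σ : ℝ} (h : P.Good e τ K σ) : ContDiff ℝ 2 P.b :=
  h.hb.of_le (by norm_cast)

theorem speed_of_good {P : Coef} {e τ K σ : ℝ} (h : P.Good e τ K σ) : Speed P.b τ τ :=
  ⟨(contDiff_two_of_good h).of_le (by norm_cast), h.b0, h.b1⟩

/-- The label of `∂₂ - b ∂₁` satisfies the hypotheses of the energy estimate. -/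
theorem labelOK_of_good {P : Coef} {e τ K σ : ℝ} (h : P.Good e τ K σ) (hτ : τ ≤ 1/4) :
    LabelOK P τ (label P.b) := by
  have hS := speed_of_good h
  have hτ0 : 0 ≤ τ := hS.B_nonneg
  have hy : ∀ x ∈ Dsk (3/2), |x.2| ≤ 5/4 := by
    intro x hx
    have : rsq x ≤ 3/2 := hx
    unfold rsq at this
    rw [abs_le]
    constructor <;> nlinarith [sq_nonneg x.1]
  refine ⟨?_, hS.d2_label, fun x _ => ?_, fun x hx => ?_, fun x hx => ?_⟩
  · exact_mod_cast hS.contDiff_label (n := 2) (contDiff_two_of_good h)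
  · exact (hS.abs_label_sub x).trans (by nlinarith [abs_nonneg x.2])
  · obtain ⟨h1, h2⟩ := hS.d1_label_bounds x
    set u := τ * |x.2|
    have hu : u ≤ 5/4 * τ := by nlinarith [hy x hx]
    have hu0 : 0 ≤ u := mul_nonneg hτ0 (abs_nonneg _)
    have h3 : 1 - u ≤ Real.exp (-u) := by linarith [Real.add_one_le_exp (-u)]
    have h4 : Real.exp u - 1 ≤ u * Real.exp u := by
      have := mul_le_mul_of_nonneg_left h3 (Real.exp_pos u).le
      rw [← Real.exp_add, add_neg_cancel, Real.exp_zero] at this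
      linarith
    have h5 : Real.exp u ≤ 3 :=
      (Real.exp_le_exp.2 (by linarith : u ≤ 1)).trans Real.exp_one_lt_three.le
    rw [abs_le]
    constructor <;> nlinarith
  · refine (hS.abs_d11_label (contDiff_two_of_good h) h.b11 x).trans ?_
    have h5 : Real.exp (2 * (τ * |x.2|)) ≤ 3 :=
      (Real.exp_le_exp.2 (by nlinarith [hy x hx, abs_nonneg x.2] : 2 * (τ * |x.2|) ≤ 1)).trans
        Real.exp_one_lt_three.le
    calc τ * |x.2| * Real.exp (2 * (τ * |x.2|)) ≤ τ * (5/4) * 3 := by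
          gcongr; exact hy x hx
      _ ≤ 8 * τ := by linarith

theorem exists_labelOK {P : Coef} {e τ K σ : ℝ} (h : P.Good e τ K σ) (hτ : τ ≤ 1/4) :
    ∃ s, LabelOK P τ s := ⟨_, labelOK_of_good h hτ⟩

end Vale.Agent.P229
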